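import Vale.Agent.N330.Pure

/-!
P330, second hand-in: the blocks. Each gate with noisy readings is replaced by a hazard free
formula which reads samples of the clouds of its inputs; the cloud of a node is the chain of
purifying gates over the list of its readers.
-/

namespace Vale.Agent.N330

open Vale.Agent.P330 Vale.Agent.Lib.NP
open Vale.Agent.Lib.PolyTime hiding C P
open Vale.Agent.Lib.Dep

/-- partial assignments of the bits -/
abbrev Tm (n K : ℕ) : Type := Fin n × Fin K → Option Bool

/-- number of bits -/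
def cJ (n K : ℕ) : ℕ := Fintype.card (Fin n × Fin K)
/-- number of partial assignments -/
def cN (n K : ℕ) : ℕ := Fintype.card (Tm n K)
/-- number of copies -/
def cR (n K : ℕ) : ℕ := Fintype.card (Fin K × Tm n K)

/-- numbering of the bits -/
noncomputable def eJ (n K : ℕ) : Fin (cJ n K) ≃ Fin n × Fin K := (Fintype.equivFin _).symm
/-- numbering of the partial assignments -/
noncomputable def eN (n K : ℕ) : Fin (cN n K) ≃ Tm n K := (Fintype.equivFin _).symm
/-- numbering of the copies -/
noncomputable def eR (n K : ℕ) : Fin K × Tm n K ≃ Fin (cR n K) := Fintype.equivFin _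

/-- the sites of a block -/
inductive Lc (n K : ℕ) where
  | cl (e : Fin n)
  | cp (e : Fin n) (r : Fin (cR n K + 1))
  | an (π : Tm n K) (j : Fin (cJ n K + 1))
  | dj (p : Fin (cN n K + 1))
  deriving Fintype

instance {n K : ℕ} : Nonempty (Lc n K) := ⟨.dj 0⟩
noncomputable instance {n K : ℕ} : Enc (Lc n K) := ⟨fun l => enc (Fintype.equivFin _ l)⟩
instance {n K : ℕ} : EncInj (Lc n K) :=
  ⟨fun _ _ h => (Fintype.equivFin _).injective (EncInj.inj h)⟩

/-- the wiring between the blocks -/
structure Wire (V : Type) (n K : ℕ) where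
  /-- the node which the slot reads -/
  own : V × Fin n → V
  /-- the previous slot with the same node -/
  prv : V × Fin n → Option (V × Fin n)
  /-- the sample -/
  nbr : V × Fin n → Fin K → V × Fin n
  /-- the partial assignments which force the value `true` -/
  imp : V → Tm n K → Bool

variable {V : Type} {n K : ℕ}

/-- nodes -/
abbrev Nd (V : Type) (n K : ℕ) : Type := (V × Lc n K) × Bool

/-- the output of the formula of a block -/
def top (v : V) : Nd V n K := ((v, .dj (Fin.last _)), true)

/-- the element of the cloud -/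
def leaf (c : V × Fin n) : Nd V n K := ((c.1, .cl c.2), false)

/-- the continuation of the chain of the cloud -/
def chn (c : V × Fin n) : Nd V n K := ((c.1, .cl c.2), true)

/-- the copy of the bit `j` for the term `π` -/
noncomputable def Wire.bit (w : Wire V n K) (v : V) (j : Fin n × Fin K) (π : Tm n K) : Nd V n K :=
  (((w.nbr (v, j.1) j.2).1, .cp (w.nbr (v, j.1) j.2).2 (eR n K (j.2, π)).castSucc), false)

/-- the sites -/
noncomputable def Wire.ts (w : Wire V n K) (v : V) : Lc n K → St (Nd V n K)
  | .cl e => ((some ((w.prv (v, e)).elim (top (w.own (v, e))) chn), false), (none, false), false)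
  | .cp e r => ((some (Fin.cases (leaf (v, e)) (fun r' => ((v, .cp e r'.castSucc), true)) r),
      false), (none, false), false)
  | .an π j => Fin.cases ((none, !w.imp v π), (none, false), false)
      (fun j' => ((some ((v, .an π j'.castSucc), false), false),
        (π (eJ n K j')).elim (none, false) fun β => (some (w.bit v (eJ n K j') π), !β), false)) j
  | .dj p => Fin.cases ((none, false), (none, false), true)
      (fun p' => ((some ((v, .dj p'.castSucc), false), true),
        (some ((v, .an (eN n K p') (Fin.last _)), true), true), true)) p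

/-- the list of all readings -/
def Wire.Rd (w : Wire V n K) (v : V) (l : Lc n K) (i : Bool) (a : Nd V n K) : Prop :=
  (∃ e, l = .cl e ∧ i = false ∧ w.prv (v, e) = none ∧ a = top (w.own (v, e))) ∨
  (∃ e c, l = .cl e ∧ i = false ∧ w.prv (v, e) = some c ∧ a = chn c) ∨
  (∃ e, l = .cp e 0 ∧ i = false ∧ a = leaf (v, e)) ∨
  (∃ e, ∃ r : Fin (cR n K), l = .cp e r.succ ∧ i = false ∧ a = ((v, .cp e r.castSucc), true)) ∨
  (∃ π, ∃ j : Fin (cJ n K), l = .an π j.succ ∧ i = false ∧ a = ((v, .an π j.castSucc), false)) ∨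
  (∃ π, ∃ j : Fin (cJ n K), l = .an π j.succ ∧ i = true ∧ a = w.bit v (eJ n K j) π) ∨
  (∃ p : Fin (cN n K), l = .dj p.succ ∧ i = false ∧ a = ((v, .dj p.castSucc), false)) ∨
  (∃ p : Fin (cN n K), l = .dj p.succ ∧ i = true ∧ a = ((v, .an (eN n K p) (Fin.last _)), true))

theorem Wire.rd (w : Wire V n K) {v : V} {l : Lc n K} {i : Bool} {a : Nd V n K}
    (h : slot (w.ts v l) i = some a) : w.Rd v l i a := by
  unfold Wire.Rd
  cases l with
  | cl e =>
    cases i
    · cases hp : w.prv (v, e) with
      | none => simp_all [slot, Wire.ts]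
      | some c => exact Or.inr (Or.inl ⟨e, c, rfl, rfl, hp, by simpa [slot, Wire.ts, hp] using h.symm⟩)
    · simp [slot, Wire.ts] at h
  | cp e r =>
    cases i
    · induction r using Fin.cases <;> simp_all [slot, Wire.ts]
    · simp [slot, Wire.ts] at h
  | an π j =>
    induction j using Fin.cases with
    | zero => cases i <;> simp [slot, Wire.ts] at h
    | succ j =>
      cases i
      · simp_all [slot, Wire.ts]
      · cases hp : π (eJ n K j) <;> simp_all [slot, Wire.ts]
  | dj p =>
    induction p using Fin.cases with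
    | zero => cases i <;> simp [slot, Wire.ts] at h
    | succ p => cases i <;> simp_all [slot, Wire.ts]

/-- the conditions on the wiring -/
structure Wire.Inj (w : Wire V n K) : Prop where
  ne : ∀ c, w.prv c ≠ some c
  inj : ∀ c c' a, w.prv c = some a → w.prv c' = some a → c = c'
  first : ∀ c c', w.prv c = none → w.prv c' = none → w.own c = w.own c' → c = c'
  nbr : ∀ c c' κ, w.nbr c κ = w.nbr c' κ → c = c'

theorem Wire.self {w : Wire V n K} (hw : w.Inj) {v : V} {l : Lc n K} {i : Bool} {a : Nd V n K}
    (h : slot (w.ts v l) i = some a) : a.1 ≠ (v, l) := by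
  rcases w.rd h with ⟨e, rfl, -, -, rfl⟩ | ⟨e, c, rfl, -, h1, rfl⟩ | ⟨e, rfl, -, rfl⟩ |
    ⟨e, r, rfl, -, rfl⟩ | ⟨π, j, rfl, -, rfl⟩ | ⟨π, j, rfl, -, rfl⟩ | ⟨p, rfl, -, rfl⟩ |
    ⟨p, rfl, -, rfl⟩
  · simp [top]
  · intro e1
    simp only [chn, Prod.mk.injEq, Lc.cl.injEq] at e1
    exact hw.ne (v, e) (h1.trans (congrArg some (Prod.ext e1.1 e1.2)))
  · simp [leaf]
  · simp [(Fin.castSucc_lt_succ (i := r)).ne]
  · simp [(Fin.castSucc_lt_succ (i := j)).ne]
  · simp [Wire.bit]
  · simp [(Fin.castSucc_lt_succ (i := p)).ne]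
  · simp

theorem Wire.once {w : Wire V n K} (hw : w.Inj) {v v' : V} {l l' : Lc n K} {i i' : Bool}
    {a : Nd V n K} (h : slot (w.ts v l) i = some a) (h' : slot (w.ts v' l') i' = some a) :
    (v, l) = (v', l') ∧ i = i' := by
  rcases w.rd h with ⟨e, rfl, rfl, h1, rfl⟩ | ⟨e, c, rfl, rfl, h1, rfl⟩ | ⟨e, rfl, rfl, rfl⟩ |
    ⟨e, r, rfl, rfl, rfl⟩ | ⟨π, j, rfl, rfl, rfl⟩ | ⟨π, j, rfl, rfl, rfl⟩ | ⟨p, rfl, rfl, rfl⟩ |
    ⟨p, rfl, rfl, rfl⟩ <;>
  rcases w.rd h' with ⟨e', rfl, rfl, h2, h3⟩ | ⟨e', c', rfl, rfl, h2, h3⟩ | ⟨e', rfl, rfl, h3⟩ |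
    ⟨e', r', rfl, rfl, h3⟩ | ⟨π', j', rfl, rfl, h3⟩ | ⟨π', j', rfl, rfl, h3⟩ |
    ⟨p', rfl, rfl, h3⟩ | ⟨p', rfl, rfl, h3⟩ <;>
  simp only [top, chn, leaf, Wire.bit, Prod.mk.injEq, reduceCtorEq, and_false,
    Bool.true_eq_false, Bool.false_eq_true, and_true, Lc.cl.injEq, Lc.cp.injEq, Lc.an.injEq,
    Lc.dj.injEq, Fin.castSucc_inj, Fin.succ_inj, EmbeddingLike.apply_eq_iff_eq] at h3 ⊢
  · simpa using hw.first _ _ h1 h2 h3
  · simpa using hw.inj _ _ c h1 (h2.trans (congrArg some (Prod.ext h3.1 h3.2).symm))
  · exact h3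
  · exact h3
  · exact h3
  · obtain ⟨h4, h5, h6, h7⟩ := h3
    have h8 := hw.nbr (v, (eJ n K j).1) (v', (eJ n K j').1) (eJ n K j).2
      (Prod.ext (h4.trans (by rw [h6])) (h5.trans (by rw [h6])))
    simp only [Prod.mk.injEq] at h8
    exact ⟨h8.1, h7, (eJ n K).injective (Prod.ext h8.2 h6)⟩
  · exact h3
  · exact h3

/-! ### The meaning of a block -/

section Sem

variable {w : Wire V n K} {P : Nd V n K → Bool → Prop} {v : V}

/-- all sites of the block are in order -/
def Wire.BOk (w : Wire V n K) (P : Nd V n K → Bool → Prop) (v : V) : Prop :=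
  ∀ l, SOk P (w.ts v l) ((v, l), false) ((v, l), true)

theorem copy_val (h : w.BOk P v) (e : Fin n) {b : Bool} (hb : P (leaf (v, e)) b)
    (r : Fin (cR n K + 1)) : P ((v, .cp e r), false) b ∧ P ((v, .cp e r), true) b := by
  induction r using Fin.induction with
  | zero => exact (h (.cp e 0)).copy hb
  | succ r ih => exact (h (.cp e r.succ)).copy ih.2

theorem an_true (h : w.BOk P v) {π : Tm n K} (hi : w.imp v π = true)
    (hb : ∀ j β, π j = some β → P (w.bit v j π) β) (j : Fin (cJ n K + 1)) :
    P ((v, .an π j), false) true ∧ P ((v, .an π j), true) true := by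
  induction j using Fin.induction with
  | zero => exact (h (.an π 0)).1 true (by simp [Wire.ts, Fc, LH, hi])
  | succ j ih =>
    refine (h (.an π j.succ)).1 true ?_
    cases hp : π (eJ n K j) with
    | none => simpa [Wire.ts, Fc, LH, hp] using ih.1
    | some β => simpa [Wire.ts, Fc, LH, hp] using ⟨ih.1, hb _ β hp⟩

theorem an_false (h : w.BOk P v) {π : Tm n K} (j : Fin (cJ n K + 1))
    (hb : w.imp v π = false ∨
      ∃ j' β, j'.succ ≤ j ∧ π (eJ n K j') = some β ∧ P (w.bit v (eJ n K j') π) (!β)) :
    P ((v, .an π j), false) false ∧ P ((v, .an π j), true) false := by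
  induction j using Fin.induction with
  | zero =>
    rcases hb with hb | ⟨j', β, h1, -⟩
    · exact (h (.an π 0)).1 false (by simp [Wire.ts, Fc, LH, hb])
    · exact absurd h1 (not_le.2 (Fin.succ_pos _))
  | succ j ih =>
    refine (h (.an π j.succ)).1 false ?_
    by_cases hc : w.imp v π = false ∨ ∃ j' β, j'.succ ≤ j.castSucc ∧ π (eJ n K j') = some β ∧
        P (w.bit v (eJ n K j') π) (!β)
    · have := (ih hc).1
      simp [Wire.ts, Fc, LH, this]
    · rcases hb with hb | ⟨j', β, h1, h2, h3⟩
      · exact absurd (Or.inl hb) hc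
      · obtain rfl : j' = j := by
          by_contra hne
          refine hc (Or.inr ⟨j', β, ?_, h2, h3⟩)
          have : (j' : ℕ) ≠ j := fun e => hne (Fin.ext e)
          simp only [Fin.le_def, Fin.val_succ, Fin.val_castSucc] at h1 ⊢
          omega
        simp [Wire.ts, Fc, LH, h2, h3]

theorem dj_true (h : w.BOk P v) (p : Fin (cN n K + 1))
    (hb : ∃ p', p'.succ ≤ p ∧ P ((v, .an (eN n K p') (Fin.last _)), true) true) :
    P ((v, .dj p), false) true ∧ P ((v, .dj p), true) true := by
  induction p using Fin.induction with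
  | zero =>
    obtain ⟨p', h1, -⟩ := hb
    exact absurd h1 (not_le.2 (Fin.succ_pos _))
  | succ p ih =>
    refine (h (.dj p.succ)).1 true ?_
    by_cases hc : ∃ p', p'.succ ≤ p.castSucc ∧ P ((v, .an (eN n K p') (Fin.last _)), true) true
    · have := (ih hc).1
      simp [Wire.ts, Fc, LH, this]
    · obtain ⟨p', h1, h2⟩ := hb
      obtain rfl : p' = p := by
        by_contra hne
        refine hc ⟨p', ?_, h2⟩
        have : (p' : ℕ) ≠ p := fun e => hne (Fin.ext e)
        simp only [Fin.le_def, Fin.val_succ, Fin.val_castSucc] at h1 ⊢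
        omega
      simp [Wire.ts, Fc, LH, h2]

theorem dj_false (h : w.BOk P v) (hb : ∀ π, P ((v, .an π (Fin.last _)), true) false)
    (p : Fin (cN n K + 1)) : P ((v, .dj p), false) false ∧ P ((v, .dj p), true) false := by
  induction p using Fin.induction with
  | zero => exact (h (.dj 0)).1 false (by simp [Wire.ts, Fc, LH])
  | succ p ih => exact (h (.dj p.succ)).1 false (by simpa [Wire.ts, Fc, LH] using ⟨ih.1, hb _⟩)

/-- The formula has no hazards. -/
theorem top_val (h : w.BOk P v) (hu : ∀ a, P a true → P a false → False)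
    {F : (Fin n × Fin K → Bool) → Bool}
    (hF : ∀ π, w.imp v π = true ↔ ∀ σ, (∀ j β, π j = some β → σ j = β) → F σ = true) (b : Bool)
    (hb : ∀ σ, (∀ j β, (∀ π, P (w.bit v j π) β) → σ j = β) → F σ = b) : P (top v) b := by
  classical
  cases b
  · refine (dj_false h (fun π => (an_false h _ ?_).2) _).2
    by_contra hc
    push Not at hc
    have h1 := (hF π).1 (by simpa using hc.1)
      (fun j => (π j).getD (decide (∀ π, P (w.bit v j π) true))) fun j β hj => by simp [hj]
    rw [hb _ fun j β hj => ?_] at h1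
    · exact absurd h1 (by simp)
    · cases hp : π j with
      | none =>
        cases β
        · simpa using ⟨π, fun h => hu _ h (hj π)⟩
        · simpa using hj
      | some γ =>
        obtain ⟨j', rfl⟩ := (eJ n K).surjective j
        have h2 := hc.2 j' γ (Fin.le_last _) hp
        have h3 := hj π
        cases β <;> cases γ <;> simp_all
  · let π : Tm n K := fun j => if ∀ π, P (w.bit v j π) true then some true
      else if ∀ π, P (w.bit v j π) false then some false else none
    have h1 : ∀ j β, π j = some β ↔ ∀ π, P (w.bit v j π) β := by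
      intro j β
      simp only [π]
      split_ifs with h2 h3
      · cases β
        · simpa using ⟨π, fun h => hu _ (h2 π) h⟩
        · simpa using h2
      · cases β
        · simpa using h3
        · simpa using h2
      · cases β
        · simpa using h3
        · simpa using h2
    obtain ⟨p, hp⟩ := (eN n K).surjective π
    refine (dj_true h _ ⟨p, Fin.le_last _, ?_⟩).2
    rw [hp]
    exact (an_true h ((hF π).2 fun σ hσ => hb σ fun j β hj => hσ j β ((h1 j β).2 hj))
      (fun j β hj => (h1 j β).1 hj π) _).2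

end Sem

end Vale.Agent.N330
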