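import Vale.Agent.N330.Cloud

/-!
P330, second hand-in: generalized circuits. The purifying gate is realised for every `ε < 1 / 6`.
-/

namespace Vale.Agent.N330

open Vale.Agent.P330 Vale.Agent.Lib.NP
open Vale.Agent.Lib.PolyTime hiding C P
open Vale.Agent.Lib.Dep

/-- the node of the circuit which holds a node of the system -/
def gn (a : ℕ) : ℕ := a / 2 * 17 + a % 2

/-- the gate of a literal -/
def litG (l : Lit ℕ) (z : ℕ) : GGate :=
  bif l.1.isSome then
    bif l.2 then .not (gn (l.1.getD 0)) z else .or (gn (l.1.getD 0)) (gn (l.1.getD 0)) z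
  else bif l.2 then .const 0 z else .const 1 z

/-- the seventeen gates of a site whose first node is `B` -/
def lg (s : St ℕ) (B : ℕ) : ℕ → GGate
  | 0 => .not (B + 16) (B + 0)
  | 1 => .and (B + 10) (B + 11) (B + 1)
  | 2 => litG s.1 (B + 2)
  | 3 => litG s.2.1 (B + 3)
  | 4 => .and (B + 2) (B + 3) (B + 4)
  | 5 => bif s.2.2 then .not (B + 4) (B + 5) else .or (B + 4) (B + 4) (B + 5)
  | 6 => bif s.2.2 then .or (B + 4) (B + 4) (B + 6) else .not (B + 4) (B + 6)
  | 7 => .const 1 (B + 7)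
  | 8 => .sub (B + 5) (B + 6) (B + 8)
  | 9 => .sub (B + 7) (B + 5) (B + 9)
  | 10 => .less (B + 6) (B + 8) (B + 10)
  | 11 => .less (B + 9) (B + 8) (B + 11)
  | 12 => .sub (B + 6) (B + 5) (B + 12)
  | 13 => .sub (B + 7) (B + 6) (B + 13)
  | 14 => .less (B + 5) (B + 12) (B + 14)
  | 15 => .less (B + 13) (B + 12) (B + 15)
  | _ => .and (B + 14) (B + 15) (B + 16)

theorem litG_out (l : Lit ℕ) (z : ℕ) : (litG l z).out = z := by
  obtain ⟨_ | a, _ | _⟩ := l <;> rfl

theorem litG_ins {l : Lit ℕ} {z a : ℕ} (h : a ∈ (litG l z).ins) : ∃ b, l.1 = some b ∧ a = gn b := by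
  obtain ⟨_ | b, _ | _⟩ := l <;> simp_all [litG, GGate.ins]

theorem litG_par (l : Lit ℕ) (z : ℕ) :
    (litG l z).par = [] ∨ (litG l z).par = [0] ∨ (litG l z).par = [1] := by
  obtain ⟨_ | a, _ | _⟩ := l <;> simp [litG, GGate.par]

theorem lg_out (s : St ℕ) (B : ℕ) {k : ℕ} (h : k < 17) : (lg s B k).out = B + k := by
  obtain ⟨l, l', _ | _⟩ := s <;> interval_cases k <;> first | exact litG_out _ _ | rfl

theorem lg_par (s : St ℕ) (B : ℕ) {k : ℕ} (h : k < 17) :
    (lg s B k).par = [] ∨ (lg s B k).par = [0] ∨ (lg s B k).par = [1] := by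
  obtain ⟨l, l', _ | _⟩ := s <;> interval_cases k <;>
    first | exact litG_par _ _ | exact Or.inl rfl | exact Or.inr (Or.inr rfl)

/-- the gates of a site which read the node `j` of the site -/
def rdrs : ℕ → List ℕ
  | 2 => [4] | 3 => [4] | 4 => [5, 6] | 5 => [8, 9, 12, 14] | 6 => [8, 10, 12, 13] | 7 => [9, 13]
  | 8 => [10, 11] | 9 => [11] | 10 => [1] | 11 => [1] | 12 => [14, 15] | 13 => [15] | 14 => [16]
  | 15 => [16] | 16 => [0] | _ => []

theorem lg_ins {s : St ℕ} {B k a : ℕ} (h : k < 17) (ha : a ∈ (lg s B k).ins) :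
    (∃ j < 17, 2 ≤ j ∧ a = B + j ∧ k ∈ rdrs j) ∨
      ∃ i b, k = 2 + Bool.toNat i ∧ slot s i = some b ∧ a = gn b := by
  obtain ⟨l, l', _ | _⟩ := s <;> interval_cases k <;>
    first
      | exact Or.inr ⟨false, _, rfl, (litG_ins ha).choose_spec⟩
      | exact Or.inr ⟨true, _, rfl, (litG_ins ha).choose_spec⟩
      | (simp only [lg, GGate.ins, cond_true, cond_false, List.mem_cons, List.not_mem_nil,
          or_false, or_self] at ha
         rcases ha with rfl | rfl <;> exact Or.inl ⟨_, by norm_num, by norm_num, rfl, by decide⟩)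
      | simp [lg, GGate.ins] at ha

/-- the detector of the value `true` -/
theorem detect {ε u w o s a w1 w2 z : ℝ} (hε : ε < 1 / 6) (ho : |o - 1| ≤ ε) (ho1 : o ≤ 1)
    (hs : |s - max (u - w) 0| ≤ ε) (ha : |a - max (o - u) 0| ≤ ε)
    (h1 : (w < s - ε → 1 - ε ≤ w1) ∧ (s + ε < w → w1 ≤ ε))
    (h2 : (a < s - ε → 1 - ε ≤ w2) ∧ (s + ε < a → w2 ≤ ε))
    (hz : (1 - ε ≤ w1 ∧ 1 - ε ≤ w2 → 1 - ε ≤ z) ∧ (w1 ≤ ε ∨ w2 ≤ ε → z ≤ ε)) :
    (1 - ε ≤ u → w ≤ ε → 1 - ε ≤ z) ∧ (u ≤ w → z ≤ ε) := by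
  have h0 := (abs_nonneg _).trans ho
  rw [abs_le] at ho hs ha
  refine ⟨fun hu hw => ?_, fun huw => ?_⟩
  · have h3 := le_max_left (u - w) 0
    have h4 : max (o - u) 0 ≤ ε := max_le (by linarith) h0
    exact hz.1 ⟨h1.1 (by linarith [hs.1]), h2.1 (by linarith [hs.1, ha.2])⟩
  · rw [max_eq_right (by linarith)] at hs
    have h3 := le_max_left (o - u) 0
    by_cases hw : s + ε < w
    · exact hz.2 (Or.inl (h1.2 hw))
    · exact hz.2 (Or.inr (h2.2 (by linarith [hs.2, ha.1, ho.1])))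

theorem litG_val {ε : ℝ} {x : ℕ → ℝ} {l : Lit ℕ} {z : ℕ} (h : (litG l z).Sat ε x) {b : Bool}
    (hb : LH (fun a b => Val ε b (x (gn a))) l b) : Val ε b (x z) := by
  obtain ⟨_ | a, _ | _⟩ := l <;> cases b <;>
    simp_all [litG, GGate.Sat, LH, Val, abs_le]

theorem lg_ok {ε : ℝ} (hε : ε < 1 / 6) {x : ℕ → ℝ} (hx : ∀ i, x i ≤ 1) {s : St ℕ} {t : ℕ}
    (h : ∀ k < 17, (lg s (t * 17) k).Sat ε x) :
    SOk (fun a b => Val ε b (x (gn a))) s (2 * t) (2 * t + 1) := by
  have e0 : gn (2 * t) = t * 17 + 0 := by rw [gn]; omega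
  have e1 : gn (2 * t + 1) = t * 17 + 1 := by rw [gn]; omega
  have d1 := detect hε (by simpa [lg, GGate.Sat] using h 7 (by norm_num)) (hx _) (h 8 (by norm_num))
    (h 9 (by norm_num)) (h 10 (by norm_num)) (h 11 (by norm_num)) (h 1 (by norm_num))
  have d0 := detect hε (by simpa [lg, GGate.Sat] using h 7 (by norm_num)) (hx _) (h 12 (by norm_num))
    (h 13 (by norm_num)) (h 14 (by norm_num)) (h 15 (by norm_num)) (h 16 (by norm_num))
  have h0 := h 0 (by norm_num)
  have h4 := h 4 (by norm_num)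
  have h5 := h 5 (by norm_num)
  have h6 := h 6 (by norm_num)
  have l2 := fun b => litG_val (h 2 (by norm_num)) (b := b)
  have l3 := fun b => litG_val (h 3 (by norm_num)) (b := b)
  simp only [SOk, e0, e1]
  refine ⟨fun b hb => ?_, ?_⟩
  · have h7 : Val ε (xor s.2.2 b) (x (t * 17 + 4)) := by
      unfold Fc at hb
      revert hb
      cases xor s.2.2 b
      · exact fun hb => h4.2 (hb.imp (l2 false) (l3 false))
      · exact fun hb => h4.1 ⟨l2 true hb.1, l3 true hb.2⟩
    have h8 : Val ε b (x (t * 17 + 5)) ∧ Val ε (!b) (x (t * 17 + 6)) := by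
      revert h5 h6 h7
      simp only [lg]
      cases s.2.2 <;> cases b
      · exact fun h5 h6 h7 => ⟨h5.2 ⟨h7, h7⟩, h6.1 h7⟩
      · exact fun h5 h6 h7 => ⟨h5.1 (Or.inl h7), h6.2 h7⟩
      · exact fun h5 h6 h7 => ⟨h5.2 h7, h6.1 (Or.inl h7)⟩
      · exact fun h5 h6 h7 => ⟨h5.1 h7, h6.2 ⟨h7, h7⟩⟩
    obtain ⟨h8, h9⟩ := h8
    cases b <;> simp only [Val, cond_true, cond_false, Bool.not_true, Bool.not_false] at h8 h9 ⊢
    · exact ⟨h0.2 (d0.1 h9 h8), d1.2 (by linarith)⟩
    · exact ⟨h0.1 (d0.2 (by linarith)), d1.1 h8 h9⟩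
  · rcases le_total (x (t * 17 + 5)) (x (t * 17 + 6)) with h7 | h7
    · exact Or.inr ⟨false, d1.2 h7⟩
    · exact Or.inl ⟨true, h0.1 (d0.2 h7)⟩

/-- the gate with the output node `z` -/
def PS.vg (S : PS) (z : ℕ) : GGate := lg (S.st (z / 17)) (z / 17 * 17) (z % 17)

theorem PS.vg_out (S : PS) (z : ℕ) : (S.vg z).out = z := by
  rw [PS.vg, lg_out _ _ (Nat.mod_lt _ (by norm_num))]
  omega

/-- the generalized circuit of a system -/
def PS.circ (S : PS) (hS : S.WF) : GCirc where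
  nodes := S.M * 17
  gates := (List.range (S.M * 17)).map S.vg
  nonempty := by simpa using hS.pos.ne'
  out_lt g hg := by
    obtain ⟨z, hz, rfl⟩ := List.mem_map.1 hg
    rw [S.vg_out]
    exact List.mem_range.1 hz
  ins_lt g hg a ha := by
    obtain ⟨z, hz, rfl⟩ := List.mem_map.1 hg
    rw [List.mem_range] at hz
    rcases lg_ins (Nat.mod_lt _ (by norm_num)) ha with ⟨j, h1, -, rfl, -⟩ | ⟨i, b, -, h1, rfl⟩
    · omega
    · have := (hS.lt _ (by omega) i b h1).1
      rw [gn]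
      omega
  par_le g hg α hα := by
    obtain ⟨z, hz, rfl⟩ := List.mem_map.1 hg
    rcases lg_par (S.st (z / 17)) (z / 17 * 17) (Nat.mod_lt z (by norm_num)) with h | h | h <;>
      rw [PS.vg, h] at hα <;> simp_all
  nodup := by
    rw [List.map_map, List.map_congr_left (f := GGate.out ∘ S.vg) (g := id)
      fun v _ => S.vg_out v, List.map_id]
    exact List.nodup_range

theorem countP_range (n : ℕ) (p : ℕ → Prop) [DecidablePred p] :
    (List.range n).countP (fun z => decide (p z)) = ((Finset.range n).filter p).card := by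
  rw [List.countP_eq_length_filter]
  rfl

theorem PS.fan (S : PS) (hS : S.WF) (v : ℕ) :
    (S.circ hS).gates.countP (fun g => decide (v ∈ g.ins)) ≤ 4 := by
  rw [PS.circ, List.countP_map]
  refine (countP_range _ fun z => v ∈ (S.vg z).ins).trans_le ?_
  by_cases hv : 2 ≤ v % 17
  · refine (Finset.card_le_card (t := ((rdrs (v % 17)).map (v / 17 * 17 + ·)).toFinset)
      fun z hz => ?_).trans ((List.toFinset_card_le _).trans ?_)
    · rw [Finset.mem_filter] at hz
      rcases lg_ins (Nat.mod_lt _ (by norm_num)) hz.2 with ⟨j, h1, -, h2, h3⟩ | ⟨i, b, -, -, h2⟩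
      · exact List.mem_toFinset.2 (List.mem_map.2 ⟨z % 17, by rwa [show v % 17 = j by omega],
          by omega⟩)
      · rw [gn] at h2
        omega
    · have := Nat.mod_lt v (show 0 < 17 by norm_num)
      rw [List.length_map]
      generalize v % 17 = j at *
      interval_cases j <;> simp [rdrs]
  · refine (Finset.card_le_one.2 fun z hz z' hz' => ?_).trans (by norm_num)
    rw [Finset.mem_filter, Finset.mem_range] at hz hz'
    rcases lg_ins (Nat.mod_lt _ (by norm_num)) hz.2 with ⟨j, h1, h2, h3, -⟩ | ⟨i, b, h1, h2, h3⟩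
    · omega
    rcases lg_ins (Nat.mod_lt _ (by norm_num)) hz'.2 with ⟨j, h4, h5, h6, -⟩ | ⟨i', b', h4, h5, h6⟩
    · omega
    obtain rfl : b = b' := by
      rw [gn] at h3 h6
      omega
    obtain ⟨h7, rfl⟩ := hS.inj _ (by omega) _ (by omega) _ _ _ h2 h5
    omega

open Classical in
theorem PS.card_bad_le (S : PS) (hS : S.WF) {ε : ℝ} (hε : ε < 1 / 6) {x : ℕ → ℝ}
    (hx : ∀ i, x i ≤ 1) : (S.bad fun a b => Val ε b (x (gn a))).card +
      (S.circ hS).gates.countP (fun g => decide (g.Sat ε x)) ≤ S.M * 17 := by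
  have h1 : (S.circ hS).gates.countP (fun g => decide (g.Sat ε x)) =
      ((Finset.range (S.M * 17)).filter fun v => (S.vg v).Sat ε x).card := by
    rw [PS.circ, List.countP_map]
    exact countP_range _ fun z => (S.vg z).Sat ε x
  have h2 := Finset.card_filter_add_card_filter_not (s := Finset.range (S.M * 17))
    fun v => (S.vg v).Sat ε x
  rw [Finset.card_range] at h2
  rw [h1, add_comm]
  refine le_trans (Nat.add_le_add_left
    (Finset.card_le_card_of_surjOn (fun v => v / 17) fun t ht => ?_) _) h2.le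
  rw [PS.bad, Finset.mem_coe, Finset.mem_filter, Finset.mem_range] at ht
  obtain ⟨k, hk⟩ := not_forall.1 fun h => ht.2 (lg_ok hε hx h)
  obtain ⟨h3, h4⟩ := Classical.not_imp.1 hk
  have e1 : (t * 17 + k) / 17 = t := by omega
  have e2 : (t * 17 + k) % 17 = k := by omega
  exact ⟨t * 17 + k, Finset.mem_coe.2 (Finset.mem_filter.2
    ⟨Finset.mem_range.2 (by omega), by rwa [PS.vg, e1, e2]⟩), e1⟩

theorem PS.code_le : ∃ c, ∀ (S : PS) (hS : S.WF),
    (S.circ hS).code.length ≤ S.M * (c * (Nat.size (S.M * 17) + 1)) := by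
  obtain ⟨B, hB⟩ : ∃ B, B = esize [(0 : ℚ≥0)] + esize [(1 : ℚ≥0)] := ⟨_, rfl⟩
  refine ⟨17 * (4 * B + 40), fun S hS => ?_⟩
  have h1 : ∀ g ∈ (S.circ hS).gates, esize g ≤ 2 * B + 15 + 9 * Nat.size (S.M * 17) := by
    intro g hg
    have h2 : esize g.out ≤ Nat.size (S.M * 17) :=
      (esize_nat _).le.trans (Nat.size_le_size ((S.circ hS).out_lt g hg).le)
    have h3 : esize g.ins ≤ g.ins.length * (2 * Nat.size (S.M * 17) + 1) :=
      esize_list_le fun a ha =>
        (esize_nat _).le.trans (Nat.size_le_size ((S.circ hS).ins_lt g hg a ha).le)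
    have h4 : g.ins.length ≤ 2 := by cases g <;> simp [GGate.ins]
    have h5 := Nat.mul_le_mul_right (2 * Nat.size (S.M * 17) + 1) h4
    have h6 : esize g.tag ≤ 4 := by
      rw [esize_nat, Nat.size_le]
      cases g <;> simp [GGate.tag]
    have h7 : esize g.par ≤ B := by
      obtain ⟨z, -, rfl⟩ := List.mem_map.1 hg
      rcases lg_par (S.st (z / 17)) (z / 17 * 17) (Nat.mod_lt z (by norm_num)) with h | h | h <;>
        rw [PS.vg, h]
      · exact Nat.zero_le _
      · omega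
      · omega
    have h8 : esize g = esize (g.tag, g.par, g.ins, g.out) := congrArg List.length (enc_ggate g)
    simp only [esize_pair] at h8
    omega
  have h2 := esize_list_le h1
  have h3 : (S.circ hS).code.length = esize (Un.mk (S.M * 17), (S.circ hS).gates) :=
    congrArg List.length (enc_gcirc _)
  have h4 : (S.circ hS).gates.length = S.M * 17 := by simp [PS.circ]
  have h5 : 0 < S.M * 17 := Nat.mul_pos hS.pos (by norm_num)
  rw [h3, esize_pair, esize_un, mul_assoc 17, ← mul_assoc S.M]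
  rw [h4] at h2
  generalize S.M * 17 = M at *
  generalize Nat.size M = s at *
  nlinarith [Nat.zero_le (M * B * s), Nat.zero_le (M * s)]

section PT

variable {α : Type} [Enc α]

variable {a b z : α → ℕ}

@[fun_prop]
theorem dpt_gnot (ha : DPT a) (hz : DPT z) : DPT fun x => GGate.not (a x) (z x) :=
  dpt_ggate (DPT.const 6) DPT.nil (ha.cons DPT.nil) hz

@[fun_prop]
theorem dpt_gor (ha : DPT a) (hb : DPT b) (hz : DPT z) : DPT fun x => GGate.or (a x) (b x) (z x) :=
  dpt_ggate (DPT.const 7) DPT.nil (ha.cons (hb.cons DPT.nil)) hz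

@[fun_prop]
theorem dpt_gand (ha : DPT a) (hb : DPT b) (hz : DPT z) :
    DPT fun x => GGate.and (a x) (b x) (z x) :=
  dpt_ggate (DPT.const 8) DPT.nil (ha.cons (hb.cons DPT.nil)) hz

@[fun_prop]
theorem dpt_gsub (ha : DPT a) (hb : DPT b) (hz : DPT z) :
    DPT fun x => GGate.sub (a x) (b x) (z x) :=
  dpt_ggate (DPT.const 4) DPT.nil (ha.cons (hb.cons DPT.nil)) hz

@[fun_prop]
theorem dpt_gless (ha : DPT a) (hb : DPT b) (hz : DPT z) :
    DPT fun x => GGate.less (a x) (b x) (z x) :=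
  dpt_ggate (DPT.const 5) DPT.nil (ha.cons (hb.cons DPT.nil)) hz

@[fun_prop]
theorem dpt_gconst (q : ℚ≥0) (hz : DPT z) : DPT fun x => GGate.const q (z x) :=
  dpt_ggate (DPT.const 0) (DPT.const [q]) DPT.nil hz

@[fun_prop]
theorem dpt_litG {l : α → Lit ℕ} (hl : DPT l) (hz : DPT z) : DPT fun a => litG (l a) (z a) := by
  simp only [litG, gn]
  fun_prop

theorem dpt_lg {s : α → St ℕ} {B : α → ℕ} (hs : DPT s) (hB : DPT B) {k : ℕ} (hk : k < 17) :
    DPT fun a => lg (s a) (B a) k := by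
  interval_cases k <;> simp only [lg] <;> fun_prop

end PT

theorem polyTime_dec {D : EOL × List ℚ≥0 → List Bool} (h : DPT D) :
    PolyTime (fun q => pairW q.1.code (ratsW q.2)) id D := by
  obtain ⟨g, hg, e⟩ := PT.rawOfList h.toPT
  exact exists_tm2_of_polyTimeFun _ _ _ g (polyTimeFun_iff.2 hg) fun q => by
    rw [pairW_eq, ratsW_eq]; exact e q

theorem half_lt_iff (q : ℚ≥0) : q.den < 2 * q.num ↔ (1 / 2 : ℝ) < q := by
  rw [NNRat.cast_def, div_lt_div_iff₀ (by norm_num) (by exact_mod_cast q.den_pos), one_mul, mul_comm]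
  exact_mod_cast Iff.rfl

theorem getD_le_one {x : List ℚ≥0} (h : ∀ q ∈ x, q ≤ 1) (i : ℕ) :
    ((x.getD i 0 : ℚ≥0) : ℝ) ≤ 1 := by
  by_cases hi : i < x.length
  · rw [List.getD_eq_getElem _ _ hi]
    exact_mod_cast h _ (List.getElem_mem hi)
  · rw [List.getD_eq_default _ _ (not_lt.1 hi)]
    simp

/-- One reduction which is right for all `ε < 1 / 6`, to circuits of fan-out at most four. -/
theorem circGoal : ∃ (δ : ℝ) (c : ℕ) (R : EOL → GCirc) (D : EOL × List ℚ≥0 → List Bool),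
    0 < δ ∧ δ < 1 ∧ (∀ I : EOL, (R I).code.length ≤ I.code.length * Nat.log 2 I.code.length ^ c) ∧
      (∀ (I : EOL) (v : ℕ), (R I).gates.countP (fun g => decide (v ∈ g.ins)) ≤ 4) ∧
      ∀ ε : ℝ, 0 < ε → ε < 1 / 6 → (∃ p, Reduces ε δ p R D) ∧
        ∀ q I x, (R I).Acceptable ε δ q x → I.Solution (D (I, x)) := by
  obtain ⟨S, δ, Dec, h⟩ := psGoal
  have h0 := h.pos
  have hm := h.m
  have hb := h.ql.pbd
  have hδ : 0 < min (1 / 2) (δ / 17) := lt_min (by norm_num) (by positivity)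
  obtain ⟨c, hc⟩ := PS.code_le
  obtain ⟨d, hd⟩ := h.ql.mul ((PL.const c).mul
    ((PL.size (hb.mul (PBd.const 17))).add (PL.const 1)))
  have p1 : DPT fun p : EOL × ℕ => (S p.1).vg p.2 :=
    dpt_finCase (γ := Fin 17) (c := fun p : EOL × ℕ => ⟨p.2 % 17, Nat.mod_lt _ (by norm_num)⟩)
      (f := fun c p => lg ((S p.1).st (p.2 / 17)) (p.2 / 17 * 17) c) (dpt_finMk (by fun_prop))
      fun c => dpt_lg (h.st.comp (f := fun p : EOL × ℕ => (p.1, p.2 / 17)) (by fun_prop))
        (by fun_prop) c.2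
  have p2 : DPT fun I => (S I).circ (h.wf I) :=
    dpt_gcirc (by simp only [PS.circ]; fun_prop) (by simp only [PS.circ]; fun_prop)
      (DPT.map (l := fun a => List.range ((S a).M * 17)) (f := fun a => (S a).vg) (by fun_prop)
        (DPT.comp (f := fun p : Σ a, {x // x ∈ List.range ((S a).M * 17)} => (p.1, p.2.1)) p1
          (by fun_prop)))
  have p3 : DPT fun q : EOL × List ℚ≥0 => Dec (q.1, (List.range (2 * (S q.1).M)).map
      fun a => decide ((q.2.getD (gn a) 0).den < 2 * (q.2.getD (gn a) 0).num)) := by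
    have h1 := h.dec
    obtain ⟨mm, hmm⟩ : ∃ mm : EOL → ℕ, ∀ I, (S I).M = mm I := ⟨_, fun _ => rfl⟩
    simp only [hmm, gn] at hm hb ⊢
    fun_prop
  refine ⟨_, d, fun I => (S I).circ (h.wf I), fun q => Dec (q.1, (List.range (2 * (S q.1).M)).map
      fun a => decide ((q.2.getD (gn a) 0).den < 2 * (q.2.getD (gn a) 0).num)), hδ,
    (min_le_left _ _).trans_lt (by norm_num),
    fun I => (hc _ _).trans (hd I), fun I => (S I).fan _, fun ε e0 e1 => ?_⟩
  have key : ∀ q I x, ((S I).circ (h.wf I)).Acceptable ε (min (1 / 2) (δ / 17)) q x →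
      I.Solution (Dec (I, (List.range (2 * (S I).M)).map
        fun a => decide ((x.getD (gn a) 0).den < 2 * (x.getD (gn a) 0).num))) := by
    intro q I x hx
    refine h.sol I (fun a b => Val ε b (x.getD (gn a) 0 : ℚ≥0)) _ (fun a b hb => ?_) ?_
    · cases b
      · rw [decide_eq_false_iff_not, half_lt_iff, not_lt]
        exact le_trans hb (by linarith)
      · rw [decide_eq_true_iff, half_lt_iff]
        exact lt_of_lt_of_le (by linarith) hb
    · have h1 := (Nat.cast_le (α := ℝ)).2 ((S I).card_bad_le (h.wf I) e1 (getD_le_one hx.2.1))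
      have h2 := hx.2.2.2
      have h3 : ((S I).circ (h.wf I)).gates.length = (S I).M * 17 := by simp [PS.circ]
      rw [h3] at h2
      have h5 : min (1 / 2) (δ / 17) * ((S I).M * 17) ≤ δ / 17 * ((S I).M * 17) :=
        mul_le_mul_of_nonneg_right (min_le_right _ _) (by positivity)
      push_cast at h1 h2
      linarith
  obtain ⟨p, hp⟩ := exists_acceptable e0 (by linarith) hδ.le
  exact ⟨⟨p, p2.toPT.exists_tm2, polyTime_dec p3, fun I => ⟨hp _, key p I⟩⟩, key⟩

end Vale.Agent.N330
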