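import Vale.Agent.N330.Block

/-!
P330, second hand-in: the clouds, and the reduction from gates with noisy readings to systems of
purifying gates.
-/

set_option linter.unusedSectionVars false

namespace Vale.Agent.N330

open Vale.Agent.P330 Vale.Agent.Lib.NP
open Vale.Agent.Lib.PolyTime hiding C P
open Vale.Agent.Lib.Dep

theorem sum_enth {C : Type} [En C] [Nonempty C] [Fintype C] (f : C → ℝ) :
    ∑ c, f c = ∑ i ∈ Finset.range (Fintype.card C), f (enth C i) := by
  rw [← Fin.sum_univ_eq_sum_range (fun i => f (enth C i)), ← (enEquiv C).symm.sum_comp]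
  rfl

theorem frac_fib {X Y : Type} [Fintype X] [Nonempty X] [Fintype Y] (f : X → Y)
    [∀ y, Fintype {x // f x = y}] [∀ y, Nonempty {x // f x = y}] (p q : X → Prop) {a b : ℝ}
    (h : ∀ y, frac (fun c : {x // f x = y} => p c.1) ≤
      a + b * frac fun c : {x // f x = y} => q c.1) : frac p ≤ a + b * frac q := by
  classical
  have key : ∀ (C : Type) [Fintype C] [Nonempty C] (p q : C → Prop), frac p ≤ a + b * frac q ↔
      ∑ c, ((if p c then 1 else 0) - a - b * if q c then 1 else 0 : ℝ) ≤ 0 := by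
    intro C _ _ p q
    have h0 : (0 : ℝ) < Fintype.card C := card_pos_real
    rw [frac_eq_mean, frac_eq_mean, mean, mean, Finset.sum_sub_distrib, Finset.sum_sub_distrib,
      ← Finset.mul_sum, Finset.sum_const, Finset.card_univ, nsmul_eq_mul, div_le_iff₀ h0, add_mul,
      mul_assoc, div_mul_cancel₀ _ h0.ne']
    constructor <;> intro h <;> linarith
  rw [key, ← (Equiv.sigmaFiberEquiv f).sum_comp, Fintype.sum_sigma]
  exact Finset.sum_nonpos fun y _ => (key _ _ _).1 (h y)

theorem chain_count (cor pl q : ℕ → Prop) [DecidablePred cor] [DecidablePred pl] [DecidablePred q]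
    (m : ℕ) (h : ∀ i < m, ¬ cor i → (pl i ∨ q (i + 1)) ∧ (q i → pl i ∧ q (i + 1))) :
    ∑ i ∈ Finset.range m, (if ¬ pl i then 1 else 0 : ℝ) + (if q m then 0 else 1) ≤
      1 + 2 * ∑ i ∈ Finset.range m, (if cor i then 1 else 0 : ℝ) := by
  induction m with
  | zero => split_ifs <;> simp
  | succ m ih =>
    have h1 := ih fun i hi => h i (by omega)
    have h2 := h m (by omega)
    rw [Finset.sum_range_succ, Finset.sum_range_succ]
    by_cases a : cor m <;> by_cases b : pl m <;> by_cases c : q m <;> by_cases d : q (m + 1) <;>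
      simp only [a, b, c, d, if_true, if_false, not_true, not_false_iff, or_self, false_and,
        and_false, imp_false, and_self, true_and] at h1 h2 ⊢ <;> linarith

variable {V : Type} {n K : ℕ}

/-- the cloud of a node: the slots which read it -/
abbrev Cl (own : V × Fin n → V) (j : V) : Type := {c : V × Fin n // own c = j}

variable (own : V × Fin n → V) [∀ j, En (Cl own j)] [∀ j, Nonempty (Cl own j)]

/-- the previous element of the cloud -/
noncomputable def prvOf (c : V × Fin n) : Option (V × Fin n) :=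
  if eidx (⟨c, rfl⟩ : Cl own (own c)) = 0 then none
  else some (enth (Cl own (own c)) (eidx (⟨c, rfl⟩ : Cl own (own c)) - 1)).1

/-- the wiring -/
noncomputable def mkWire (nb : ∀ j, Cl own j → Fin K → Cl own j) (imp : V → Tm n K → Bool) :
    Wire V n K :=
  ⟨own, prvOf own, fun c κ => (nb (own c) ⟨c, rfl⟩ κ).1, imp⟩

variable {own} {nb : ∀ j, Cl own j → Fin K → Cl own j} {imp : V → Tm n K → Bool}

theorem prvOf_eq {j : V} (c : Cl own j) :
    prvOf own c.1 = if eidx c = 0 then none else some (enth (Cl own j) (eidx c - 1)).1 := by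
  obtain ⟨c, rfl⟩ := c
  rfl

theorem nbr_eq {j : V} (c : Cl own j) (κ : Fin K) :
    (mkWire own nb imp).nbr c.1 κ = (nb j c κ).1 := by
  obtain ⟨c, rfl⟩ := c
  rfl

variable [∀ j, Fintype (Cl own j)]

theorem mkWire_inj (hnb : ∀ j κ, Function.Injective fun c => nb j c κ) :
    (mkWire own nb imp).Inj := by
  have h0 : ∀ j (c : Cl own j) a, prvOf own c.1 = some a →
      ∃ h : own a = j, eidx (⟨a, h⟩ : Cl own j) + 1 = eidx c := by
    intro j c a h
    rw [prvOf_eq] at h
    split_ifs at h with h1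
    obtain rfl := Option.some.inj h
    refine ⟨(enth (Cl own j) (eidx c - 1)).2, ?_⟩
    rw [Subtype.coe_eta, eidx_enth ((Nat.sub_le _ _).trans_lt (eidx_lt c))]
    omega
  refine ⟨fun c h => ?_, fun c c' a h h' => ?_, fun c c' h h' e => ?_, fun c c' κ h => ?_⟩
  · obtain ⟨h1, h2⟩ := h0 _ ⟨c, rfl⟩ c h
    omega
  · obtain ⟨h1, h2⟩ := h0 _ ⟨c, rfl⟩ a h
    obtain ⟨h3, -⟩ := h0 _ ⟨c', rfl⟩ a h'
    obtain ⟨h4, h5⟩ := h0 _ ⟨c', h3.symm.trans h1⟩ a h'
    exact congrArg Subtype.val (eidx_injective (h2.symm.trans h5))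
  · have h1 := (prvOf_eq (⟨c, rfl⟩ : Cl own (own c))).symm.trans h
    have h2 := (prvOf_eq (⟨c', e.symm⟩ : Cl own (own c))).symm.trans h'
    split_ifs at h1 h2 with h3 h4
    exact congrArg Subtype.val (eidx_injective (h3.trans h4.symm))
  · have h1 : own c' = own c :=
      (nb _ ⟨c', rfl⟩ κ).2.symm.trans ((congrArg own h).symm.trans (nb _ ⟨c, rfl⟩ κ).2)
    have h2 := (nbr_eq (imp := imp) (⟨c', h1⟩ : Cl own (own c)) κ).symm.trans h.symm
    exact congrArg Subtype.val (hnb _ κ (Subtype.ext h2.symm))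

variable {P : Nd V n K → Bool → Prop}

/-- the input of the chain at the position `i` -/
noncomputable def inp (own : V × Fin n → V) [∀ j, En (Cl own j)] [∀ j, Nonempty (Cl own j)]
    (K : ℕ) (j : V) : ℕ → Nd V n K
  | 0 => top j
  | i + 1 => chn (enth (Cl own j) i).1

theorem cl_ok {j : V} {i : ℕ} (hi : i < Fintype.card (Cl own j))
    (h : (mkWire own nb imp).BOk P (enth (Cl own j) i).1.1) :
    SOk P ((some (inp own K j i), false), (none, false), false) (leaf (enth (Cl own j) i).1)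
      (inp own K j (i + 1)) := by
  have h1 := h (.cl (enth (Cl own j) i).1.2)
  have h2 : ((mkWire own nb imp).prv (enth (Cl own j) i).1).elim
      (top ((mkWire own nb imp).own (enth (Cl own j) i).1)) chn = inp own K j i := by
    change (prvOf own _).elim (top (own _)) chn = _
    rw [prvOf_eq, eidx_enth hi, (enth (Cl own j) i).2]
    cases i <;> simp [inp]
  rw [← h2]
  exact h1

theorem leaf_val {j : V} (h : ∀ c : Cl own j, (mkWire own nb imp).BOk P c.1.1) {b : Bool}
    (hb : P (top j) b) (c : Cl own j) : P (leaf c.1) b := by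
  have key : ∀ i ≤ Fintype.card (Cl own j), P (inp own K j i) b := by
    intro i
    induction i with
    | zero => exact fun _ => hb
    | succ i ih => exact fun hi => ((cl_ok hi (h _)).copy (ih (by omega))).2
  have := ((cl_ok (eidx_lt c) (h _)).copy (key _ (eidx_lt c).le)).1
  rwa [enth_eidx] at this

theorem impure_le (j : V) : frac (fun c : Cl own j => ¬ ∃ b, P (leaf c.1) b) ≤
    1 / Fintype.card (Cl own j) + 2 * frac fun c : Cl own j => ¬ (mkWire own nb imp).BOk P c.1.1 := by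
  classical
  have h1 := chain_count (fun i => ¬ (mkWire own nb imp).BOk P (enth (Cl own j) i).1.1)
    (fun i => ∃ b, P (leaf (enth (Cl own j) i).1) b) (fun i => ∃ b, P (inp own K j i) b)
    (Fintype.card (Cl own j)) fun i hi h => by
      have h2 := cl_ok hi (not_not.1 h)
      exact ⟨h2.2, fun ⟨b, hb⟩ => ⟨⟨b, (h2.copy hb).1⟩, b, (h2.copy hb).2⟩⟩
  rw [frac_eq_mean, frac_eq_mean, mean, mean, sum_enth, sum_enth, ← mul_div_assoc, ← add_div]
  refine div_le_div_of_nonneg_right (le_trans ?_ h1) (by positivity)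
  split_ifs <;> simp

/-- the value of a node -/
noncomputable def val (own : V × Fin n → V) [∀ j, Fintype (Cl own j)] (r : Nd V n K → Bool)
    (j : V) : ℝ := mean fun c : Cl own j => bv (r (leaf c.1))

open Classical in
/-- the slot has a good sample -/
def Good (w : Wire V n K) (nb : ∀ j, Cl own j → Fin K → Cl own j) (P : Nd V n K → Bool → Prop)
    (r : Nd V n K → Bool) (η : ℝ) (j : V) (c : Cl own j) : Prop :=
  |mean (fun κ => bv (r (leaf (nb j c κ).1))) - val own r j| ≤ η ∧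
    |mean (fun κ => if ¬ w.BOk P (nb j c κ).1.1 ∨ ¬ ∃ b, P (leaf (nb j c κ).1) b then 1 else 0) -
      mean (fun c : Cl own j => if ¬ w.BOk P c.1.1 ∨ ¬ ∃ b, P (leaf c.1) b then 1 else 0)| ≤ η ∧
    frac (fun c : Cl own j => ¬ w.BOk P c.1.1) ≤ η

theorem not_good_le (w : Wire V n K) (r : Nd V n K → Bool) {η : ℝ} (hη : 0 < η) {j : V}
    (hs : Sampler η (nb j)) : frac (fun c => ¬ Good w nb P r η j c) ≤
      2 * η + 1 / η * frac fun c : Cl own j => ¬ w.BOk P c.1.1 := by
  classical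
  have h0 := frac_nonneg fun c : Cl own j => ¬ w.BOk P c.1.1
  by_cases hc : frac (fun c : Cl own j => ¬ w.BOk P c.1.1) ≤ η
  · have h1 := hs (fun c => bv (r (leaf c.1))) fun c => ⟨bv_nonneg _, bv_le_one _⟩
    have h2 := hs (fun c => if ¬ w.BOk P c.1.1 ∨ ¬ ∃ b, P (leaf c.1) b then 1 else 0)
      fun c => by split_ifs <;> simp
    refine (frac_le_add (fun c h => ?_)).trans ((add_le_add h1 h2).trans ?_)
    · by_contra hn
      rw [not_or, not_lt, not_lt] at hn
      exact h ⟨hn.1, hn.2, hc⟩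
    · have : 0 ≤ 1 / η * frac fun c : Cl own j => ¬ w.BOk P c.1.1 := by positivity
      linarith
  · have h1 : 1 ≤ 1 / η * frac fun c : Cl own j => ¬ w.BOk P c.1.1 := by
      rw [one_div_mul_eq_div, one_le_div hη]
      exact (not_le.1 hc).le
    linarith [frac_le_one fun c => ¬ Good w nb P r η j c]

theorem read_close {r : Nd V n K → Bool} (hr : ∀ a b, P a b → r a = b) {η : ℝ} {v : V} {e : Fin n}
    (hg : Good (mkWire own nb imp) nb P r η _ ⟨(v, e), rfl⟩) {σ : Fin n × Fin K → Bool}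
    (hσ : ∀ j β, (∀ π, P ((mkWire own nb imp).bit v j π) β) → σ j = β) :
    |mean (fun κ => bv (σ (e, κ))) - val own r (own (v, e))| ≤
      5 * η + 1 / Fintype.card (Cl own (own (v, e))) := by
  classical
  obtain ⟨h1, h2, h3⟩ := hg
  have h4 := abs_mean_sub_le_frac (a := 0) (p := fun κ =>
      ¬ (mkWire own nb imp).BOk P (nb _ ⟨(v, e), rfl⟩ κ).1.1 ∨
        ¬ ∃ b, P (leaf (nb _ ⟨(v, e), rfl⟩ κ).1) b) (f := fun κ => bv (σ (e, κ)))
    (g := fun κ => bv (r (leaf (nb _ ⟨(v, e), rfl⟩ κ).1))) le_rfl (unit01_bv _) (unit01_bv _)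
    fun κ hκ => by
      push Not at hκ
      obtain ⟨h5, b, hb⟩ := hκ
      rw [hr _ b hb, hσ (e, κ) b fun π => (copy_val h5 _ hb _).1]
      simp
  have h5 := impure_le (nb := nb) (imp := imp) (P := P) (own (v, e))
  have h6 := frac_or_le (fun c : Cl own (own (v, e)) => ¬ (mkWire own nb imp).BOk P c.1.1)
    fun c => ¬ ∃ b, P (leaf c.1) b
  rw [← frac_eq_mean, ← frac_eq_mean, abs_le] at h2
  rw [abs_le] at h1 h4 ⊢
  constructor <;> linarith [h1.1, h1.2, h2.2, h4.1, h4.2]

end Vale.Agent.N330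

namespace Vale.Agent.N330

open Vale.Agent.P330 Vale.Agent.Lib.NP
open Vale.Agent.Lib.PolyTime hiding C P
open Vale.Agent.Lib.Dep

theorem dpt_ts {α : Type} [Enc α] {V : α → Type} [∀ a, Enc (V a)] {n K : ℕ}
    (w : ∀ a, Wire (V a) n K) (h1 : DPT fun x : Σ a, V a × Fin n => (w x.1).own x.2)
    (h2 : DPT fun x : Σ a, V a × Fin n => (w x.1).prv x.2)
    (h3 : ∀ κ, DPT fun x : Σ a, V a × Fin n => (w x.1).nbr x.2 κ)
    (h4 : ∀ π, DPT fun x : Σ a, V a => (w x.1).imp x.2 π) (l : Lc n K) :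
    DPT fun x : Σ a, V a => (w x.1).ts x.2 l := by
  have h0 : ∀ e : Fin n, DPT fun x : Σ a, V a => (⟨x.1, x.2, e⟩ : Σ a, V a × Fin n) :=
    fun e => DPT.smk DPT.id.sfst (DPT.ssnd.pair (DPT.const e))
  have hv : DPT fun x : Σ a, V a => x.2 := DPT.ssnd
  cases l with
  | cl e =>
    refine ((DPT.some (dpt_optElim (f := fun _ c => chn c) (h2.comp (h0 e))
      (((h1.comp (h0 e)).pair (DPT.const _)).pair (DPT.const _)) ?_)).pair (DPT.const _)).pair
      ((DPT.none.pair (DPT.const _)).pair (DPT.const _))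
    exact (DPT.ssnd.fst.pair (dpt_finComp Lc.cl DPT.ssnd.snd)).pair (DPT.const _)
  | cp e r =>
    induction r using Fin.cases <;> simp only [Wire.ts, Fin.cases_zero, Fin.cases_succ, leaf] <;>
      exact ((DPT.some ((hv.pair (DPT.const _)).pair (DPT.const _))).pair (DPT.const _)).pair
        ((DPT.none.pair (DPT.const _)).pair (DPT.const _))
  | an π j =>
    induction j using Fin.cases with
    | zero =>
      exact (DPT.none.pair (h4 π).not).pair ((DPT.none.pair (DPT.const _)).pair (DPT.const _))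
    | succ j =>
      refine ((DPT.some ((hv.pair (DPT.const _)).pair (DPT.const _))).pair (DPT.const _)).pair
        (DPT.pair ?_ (DPT.const _))
      cases π (eJ n K j) with
      | none => exact DPT.none.pair (DPT.const _)
      | some β =>
        have h5 := (h3 (eJ n K j).2).comp (h0 (eJ n K j).1)
        exact (DPT.some ((h5.fst.pair (dpt_finComp (fun e => Lc.cp e _) h5.snd)).pair
          (DPT.const _))).pair (DPT.const _)
  | dj p =>
    induction p using Fin.cases with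
    | zero => exact (DPT.none.pair (DPT.const _)).pair ((DPT.none.pair (DPT.const _)).pair (DPT.const _))
    | succ p =>
      exact ((DPT.some ((hv.pair (DPT.const _)).pair (DPT.const _))).pair (DPT.const _)).pair
        (((DPT.some ((hv.pair (DPT.const _)).pair (DPT.const _))).pair (DPT.const _)).pair
          (DPT.const _))

/-- the function of a gate on the samples -/
noncomputable def smp {n K : ℕ} (f : List ℝ → Bool) (k : ℕ) (σ : Fin n × Fin K → Bool) : Bool :=
  f ((List.ofFn fun e : Fin n => mean fun κ => bv (σ (e, κ))).take k)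

theorem frac_image_le {X Y : Type} [Fintype X] [Fintype Y] [Nonempty X] [Nonempty Y]
    (f : X × Y → X) (p : X × Y → Prop) :
    frac (fun x => ∃ c, f c = x ∧ p c) ≤ Fintype.card Y * frac p := by
  classical
  have h0 : (0 : ℝ) < Fintype.card X := card_pos_real
  have h1 : (0 : ℝ) < Fintype.card Y := card_pos_real
  rw [frac_eq, frac_eq, Fintype.card_prod, Nat.cast_mul, ← mul_div_assoc, mul_comm (_ : ℝ)
    (Fintype.card Y : ℝ), mul_div_mul_left _ _ h1.ne']
  refine div_le_div_of_nonneg_right (Nat.cast_le.2 (Finset.card_le_card_of_surjOn f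
    fun x hx => ?_)) h0.le
  simp only [Finset.coe_filter, Finset.mem_univ, true_and, Set.mem_ofPred_eq] at hx
  obtain ⟨c, h2, h3⟩ := hx
  exact ⟨c, by simpa using h3, h2⟩

theorem sound {V : Type} [Fintype V] [Nonempty V] (g : V → Gate V) {n0 N0 m K : ℕ}
    (hn : ∀ v, (g v).src.length ≤ n0) (hm : m = n0 + N0) {own : V × Fin (m + 1) → V}
    (ho : ∀ c, own c = (g c.1).src.getD c.2 c.1) [∀ j, En (Cl own j)] [∀ j, Nonempty (Cl own j)]
    [∀ j, Fintype (Cl own j)] {nb : ∀ j, Cl own j → Fin K → Cl own j} {imp : V → Tm (m + 1) K → Bool}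
    (hi : ∀ v π, imp v π = true ↔
      ∀ σ, (∀ j β, π j = some β → σ j = β) → smp (g v).fn (g v).src.length σ = true)
    {η η' δ : ℝ} (h0 : 0 < η) (hη' : 0 < η') (hN : 2 / η ≤ N0) (e1 : η' * (10 * (m + 1 : ℕ)) = η)
    (d1 : δ ≤ η') (d2 : δ ≤ η' * η') (hS : ∀ j, Sampler η' (nb j))
    {P : Nd V (m + 1) K → Bool → Prop} {r : Nd V (m + 1) K → Bool} (hr : ∀ a b, P a b → r a = b)
    (hb' : frac (fun v => ¬ (mkWire own nb imp).BOk P v) ≤ δ) :
    frac (fun v => ¬ (g v).Sat η (val own r) (val own r v)) ≤ η := by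
  have hown : ∀ v (e : Fin (m + 1)), n0 ≤ e → own (v, e) = v := fun v e he =>
    (ho _).trans (List.getD_eq_default _ _ ((hn v).trans he))
  have hu : ∀ a, P a true → P a false → False := fun a h1 h2 => by
    simpa [hr a _ h1] using hr a _ h2
  have hb2 : frac (fun c : V × Fin (m + 1) => ¬ (mkWire own nb imp).BOk P c.1) ≤ δ :=
    (frac_fst fun v => ¬ (mkWire own nb imp).BOk P v).trans_le hb'
  have hb3 := frac_fib own
    (fun c => ¬ Good (mkWire own nb imp) nb P r η' (own c) ⟨c, rfl⟩)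
    (fun c => ¬ (mkWire own nb imp).BOk P c.1) (a := 2 * η') (b := 1 / η') fun j =>
      le_trans (frac_mono fun ⟨c, hc⟩ => by subst hc; exact id)
        (not_good_le (P := P) (mkWire own nb imp) r hη' (hS j))
  refine (frac_le_add3 (q := fun v => ¬ (mkWire own nb imp).BOk P v)
    (r := fun v => ∃ c, own c = v ∧ ¬ (mkWire own nb imp).BOk P c.1)
    (s := fun v => ∃ c : V × Fin (m + 1), c.1 = v ∧
      ¬ Good (mkWire own nb imp) nb P r η' (own c) ⟨c, rfl⟩) fun v hv => ?_).trans ?_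
  · by_contra hc
    push Not at hc
    refine hv fun b hb => ?_
    have h1 : P (top v) b := top_val hc.1 hu (F := smp (g v).fn (g v).src.length)
      (hi v) b fun σ hσ => hb _ ?_
    · have h2 := leaf_val (fun c : Cl own v => hc.2.1 c.1 c.2) h1
      exact (mean_congr fun c => congrArg bv (hr _ b (h2 c))).trans (mean_const _)
    · have h2 : (g v).src.length ≤ m + 1 := (hn v).trans (by omega)
      refine List.forall₂_of_length_eq_of_get (by simp [h2]) fun i hi hi' => ?_
      have h3 := read_close hr (hc.2.2 (v, ⟨i, hi.trans_le h2⟩) rfl) hσ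
      have h4 : own (v, ⟨i, hi.trans_le h2⟩) = (g v).src[i] :=
        (ho _).trans (List.getD_eq_getElem _ _ hi)
      have h5 : ∀ j, N0 ≤ Fintype.card (Cl own j) := fun j => by
        simpa using Fintype.card_le_of_injective (fun k : Fin N0 =>
          (⟨(j, ⟨n0 + k, by omega⟩), hown _ _ (Nat.le_add_right _ _)⟩ : Cl own j))
          fun k k' e => by simpa [Fin.ext_iff] using e
      have h6 : 1 / (Fintype.card (Cl own (own (v, ⟨i, hi.trans_le h2⟩))) : ℝ) ≤ η / 2 := by
        rw [one_div_le card_pos_real (by positivity), one_div_div]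
        exact hN.trans (Nat.cast_le.2 (h5 _))
      simp only [List.get_eq_getElem, List.getElem_take, List.getElem_ofFn, ← h4]
      refine h3.trans ?_
      have : (1 : ℝ) ≤ (m + 1 : ℕ) := by exact_mod_cast Nat.le_add_left 1 m
      nlinarith
  · have h1 := frac_image_le own fun c => ¬ (mkWire own nb imp).BOk P c.1
    have h2 := frac_image_le Prod.fst fun c : V × Fin (m + 1) =>
      ¬ Good (mkWire own nb imp) nb P r η' (own c) ⟨c, rfl⟩
    rw [Fintype.card_fin] at h1 h2
    have h3 : 1 / η' * frac (fun c : V × Fin (m + 1) => ¬ (mkWire own nb imp).BOk P c.1) ≤ η' := by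
      rw [one_div_mul_eq_div, div_le_iff₀ hη']
      exact hb2.trans d2
    have h4 : (1 : ℝ) ≤ (m + 1 : ℕ) := by exact_mod_cast Nat.le_add_left 1 m
    have h5 := mul_le_mul_of_nonneg_left (hb2.trans d1) (zero_le_one.trans h4)
    have h6 := mul_le_mul_of_nonneg_left (hb3.trans (add_le_add le_rfl h3)) (zero_le_one.trans h4)
    nlinarith

theorem ps_of_tc (V : TF EOL) (g : ∀ I, V.T I → Gate (V.T I))
    (dec : ∀ I, Vec (V.T I) Bool → List Bool) (η : ℝ) (h : TCOk V g dec η)
    (hQ : QL fun I => Fintype.card (V.T I)) : ∃ S δ Dec, PSOk S δ Dec := by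
  classical
  obtain ⟨n0, hn⟩ := h.gate.len
  have h0 := h.pos
  obtain ⟨N0, hN⟩ := exists_nat_ge (2 / η)
  obtain ⟨m, hm⟩ : ∃ m, m = n0 + N0 := ⟨_, rfl⟩
  obtain ⟨η', hη', e1⟩ : ∃ η' : ℝ, 0 < η' ∧ η' * (10 * (m + 1 : ℕ)) = η :=
    ⟨η / (10 * (m + 1 : ℕ)), by positivity, by field_simp⟩
  obtain ⟨δ, hδ, d1, d2⟩ : ∃ δ : ℝ, 0 < δ ∧ δ ≤ η' ∧ δ ≤ η' * η' :=
    ⟨_, lt_min hη' (by positivity), min_le_left _ _, min_le_right _ _⟩
  obtain ⟨K, -, hS⟩ := sampStmt η' hη'
  let own : ∀ I, V.T I × Fin (m + 1) → V.T I := fun I c => (g I c.1).src.getD c.2 c.1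
  have hown : ∀ I v (e : Fin (m + 1)), n0 ≤ e → own I (v, e) = v := fun I v e he =>
    List.getD_eq_default _ _ ((hn ⟨I, v⟩).trans he)
  have pown : DPT fun x : Σ I, V.T I × Fin (m + 1) => own x.1 x.2 :=
    DPT.getD (h.gate.src.comp (DPT.smk DPT.id.sfst DPT.ssnd.fst)) (dpt_finVal DPT.ssnd.snd)
      DPT.ssnd.fst
  let C : TF (Σ I, V.T I) := TF.sub
    ((V.prod (TF.const EOL (CT.finS m))).comap Sigma.fst DPT.id.sfst) (fun a c => own a.1 c = a.2)
    (DPr.eq (pown.comp (DPT.smk DPT.id.sfst.sfst DPT.ssnd)) (DPT.ssnd.comp DPT.id.sfst))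
    fun a => ⟨(a.2, Fin.last m), hown _ _ _ (by simp [hm])⟩
  obtain ⟨nb, hnb, hS⟩ := hS _ C
  let _ : ∀ I j, En (Cl (own I) j) := fun I j => C.en ⟨I, j⟩
  let _ : ∀ I j, Fintype (Cl (own I) j) := fun I j => C.fin ⟨I, j⟩
  have _ : ∀ I j, Nonempty (Cl (own I) j) := fun I j => C.ne ⟨I, j⟩
  let imp : ∀ I, V.T I → Tm (m + 1) K → Bool := fun I v π => decide (∀ σ,
    (∀ j β, π j = some β → σ j = β) → smp (g I v).fn (g I v).src.length σ = true)
  let w : ∀ I, Wire (V.T I) (m + 1) K := fun I => mkWire (own I) (fun j => nb ⟨I, j⟩) (imp I)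
  have hw : ∀ I, (w I).Inj := fun I => mkWire_inj fun j κ => ((hS ⟨I, j⟩).2 κ).1
  have pc : DPT fun x : Σ I, V.T I × Fin (m + 1) => (⟨x.1, own x.1 x.2⟩ : Σ I, V.T I) :=
    DPT.smk DPT.id.sfst pown
  have pe : DPT fun x : Σ I, V.T I × Fin (m + 1) => (⟨x.2, rfl⟩ : C.T ⟨x.1, own x.1 x.2⟩) :=
    DPT.ssnd.of_enc fun _ => rfl
  have pi : DPT fun x : Σ I, V.T I × Fin (m + 1) => eidx (⟨x.2, rfl⟩ : C.T ⟨x.1, own x.1 x.2⟩) :=
    dpt_eidx (C.pt.comp pc) pe
  refine psOk_of_typed V (fun I => (w I).ts)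
    (fun I r => dec I fun v => decide (1 / 2 < val (own I) r v)) hδ hQ
    (dpt_ts w pown (DPT.ite (DPr.eq pi (DPT.const 0)) DPT.none
      (DPT.some (DPT.val (dpt_enth (C.pt.comp pc) (pi.natSub (DPT.const 1))))))
      (fun κ => DPT.val ((hnb κ).comp (DPT.smk pc pe))) fun π => ?_) ?_
    (fun I v l i a => Wire.self (hw I)) (fun I v l i v' l' i' a => Wire.once (hw I))
    fun I P r hr hb => ?_
  · have h1 : FinSel fun x : Σ I, V.T I => (g x.1 x.2).src.length :=
      FinSel.of_dpt (γ := Fin (n0 + 1)) Fin.val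
        (c := fun x => ⟨(g x.1 x.2).src.length, Nat.lt_succ_of_le (hn x)⟩)
        (dpt_finMk h.gate.src.length)
    exact (h.gate.fn.map₂ h1 fun f k => decide (∀ σ : Fin (m + 1) × Fin K → Bool,
      (∀ j β, π j = some β → σ j = β) → smp f k σ = true)).dpt
  · refine h.decPT.comp (f := fun p : EOL × List Bool => (⟨p.1, fun v => decide (1 / 2 <
      val (own p.1) (fun a => p.2.getD (nd a) false) v)⟩ : Σ I, Vec (V.T I) Bool))
      (DPT.smk DPT.id.fst (dpt_vecMk (V.pt.comp DPT.id.fst) (DPT.decide ?_)))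
    have h1 : DPT fun x : Σ p : EOL × List Bool, V.T p.1 => (⟨x.1.1, x.2⟩ : Σ I, V.T I) :=
      DPT.smk DPT.id.sfst.fst DPT.ssnd
    have h2 : DPT fun y : Σ x : Σ p : EOL × List Bool, V.T p.1, C.T ⟨x.1.1, x.2⟩ =>
        (leaf y.2.1 : Nd (V.T y.1.1.1) (m + 1) K) :=
      (DPT.ssnd.val.fst.pair (dpt_finComp Lc.cl DPT.ssnd.val.snd)).pair (DPT.const _)
    refine (dpr_frac_le (q := fun (x : Σ p : EOL × List Bool, V.T p.1) (c : C.T ⟨x.1.1, x.2⟩) =>
      x.1.2.getD (nd (leaf c.1 : Nd (V.T x.1.1) (m + 1) K)) false = true) (C.pt.comp h1)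
      (DPr.eq (DPT.getD DPT.id.sfst.sfst.snd (dpt_nd V DPT.id.sfst.sfst.fst h2) (DPT.const _))
        (DPT.const _)) 1 two_pos).not.congr fun x => ?_
    rw [frac_eq_mean_bv, not_le, Nat.cast_one, Nat.cast_ofNat]
    rfl
  · exact h.sol I (val (own I) r)
      (fun v => ⟨(unit01_bv _).mean_nonneg, (unit01_bv _).mean_le_one⟩)
      (sound (g I) (fun v => hn ⟨I, v⟩) hm (fun _ => rfl) (fun v π => decide_eq_true_iff) h0 hη' hN
        e1 d1 d2 (fun j => (hS ⟨I, j⟩).1) hr ((frac_congr fun v => not_forall).trans_le hb))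

open Outer Outer.Phys in
theorem psGoal : ∃ S δ Dec, PSOk S δ Dec :=
  compAll ps_of_tc sampStmt bStmt (physCodeStmt sampStmt) gadget exactStmt evalStmt bohr
    (outer_of_tos (tos_of (gm_of (GMD.absStmt (GMD.opStmt agDistStmt)) GMD.ptStmt)))

end Vale.Agent.N330
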