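import Vale.Agent.P330.Defs
import Mathlib.Algebra.BigOperators.Group.List.Basic
import Mathlib.Algebra.Ring.Parity

/-!
P330, second hand-in: polymatrix games with two actions per player on bipartite graphs of degree
at most three.
-/

namespace Vale.Agent.N330

open Vale.Agent.P330 Vale.Agent.Lib.NP

/-- A subgame between the players `i` and `j`, each with the actions `false` and `true`. If `i`
plays `s` and `j` plays `t`, then `i` gets `A s t` and `j` gets `B t s`. -/
structure Sub where
  i : ℕ
  j : ℕ
  A : Bool → Bool → ℚ≥0
  B : Bool → Bool → ℚ≥0

/-- The expected payoff of the action `s` in the table `A` if the opponent plays `true` with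
probability `y`. -/
def mix (A : Bool → Bool → ℚ≥0) (s : Bool) (y : ℝ) : ℝ := (1 - y) * A s false + y * A s true

/-- The utility of the action `s` for the player `p`, if each player `q` plays `true` with
probability `x q`: the sum of the expected payoffs in the subgames of `p`. -/
def util (l : List Sub) (x : ℕ → ℝ) (p : ℕ) (s : Bool) : ℝ :=
  (l.map fun e => (if e.i = p then mix e.A s (x e.j) else 0) +
    if e.j = p then mix e.B s (x e.i) else 0).sum

/-- The code of a subgame: the two players in binary and the eight payoffs. -/
def Sub.code (e : Sub) : List Bool :=
  pairW e.i.bits (pairW e.j.bits (ratsW [e.A false false, e.A false true, e.A true false,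
    e.A true true, e.B false false, e.B false true, e.B true false, e.B true true]))

/-- A polymatrix game with the players `0, …, players - 1`. The graph of the subgames is simple and
bipartite (even against odd players) and has degree at most three; utilities are at most one. -/
structure Game where
  players : ℕ
  subs : List Sub
  pos : 0 < players
  lt : ∀ e ∈ subs, e.i < players ∧ e.j < players
  bip : ∀ e ∈ subs, Even e.i ∧ Odd e.j
  nodup : (subs.map fun e => (e.i, e.j)).Nodup
  deg : ∀ p, subs.countP (fun e => decide (e.i = p ∨ e.j = p)) ≤ 3
  le_one : ∀ x : ℕ → ℝ, (∀ q, 0 ≤ x q ∧ x q ≤ 1) → ∀ p s, util subs x p s ≤ 1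

/-- The code of a game: the number of players in unary and the list of the subgames. -/
def Game.code (G : Game) : List Bool :=
  pairW (List.replicate G.players true) (listW (G.subs.map Sub.code))

/-- The player `p` cannot gain more than `ε` by a deviation. -/
def Game.Happy (G : Game) (ε : ℝ) (x : ℕ → ℝ) (p : ℕ) : Prop :=
  ∀ s, util G.subs x p s ≤ (1 - x p) * util G.subs x p false + x p * util G.subs x p true + ε

/-- Every action which the player `p` uses with positive probability is an `ε`-best response. -/
def Game.Supp (G : Game) (ε : ℝ) (x : ℕ → ℝ) (p : ℕ) : Prop :=
  (0 < x p → util G.subs x p false ≤ util G.subs x p true + ε) ∧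
    (x p < 1 → util G.subs x p true ≤ util G.subs x p false + ε)

open Classical in
/-- The list `x` is a rational mixed profile (the probability of `true` for each player) in which
at least `(1 - δ) players` players have the property `H`. -/
def Game.Most (G : Game) (δ : ℝ) (H : (ℕ → ℝ) → ℕ → Prop) (x : List ℚ≥0) : Prop :=
  x.length = G.players ∧ (∀ q ∈ x, q ≤ 1) ∧ (1 - δ) * G.players ≤
    ((List.range G.players).countP fun p => decide (H (fun i => (x.getD i 0 : ℚ≥0)) p) : ℕ)

end Vale.Agent.N330
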