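import Vale.Agent.N330.Circ
import Vale.Agent.N330.Defs

/-!
P330, second hand-in: polymatrix games. Each site of a system of purifying gates is simulated by
six players.
-/

namespace Vale.Agent.N330

open Vale.Agent.P330 Vale.Agent.Lib.NP Vale.Agent.P051T
open Vale.Agent.Lib.PolyTime hiding C P
open Vale.Agent.Lib.Dep

/-! ### Utilities -/

theorem util_nil (x : ℕ → ℝ) (p : ℕ) (s : Bool) : util [] x p s = 0 := rfl

theorem util_cons (e : Sub) (l : List Sub) (x : ℕ → ℝ) (p : ℕ) (s : Bool) : util (e :: l) x p s =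
    (if e.i = p then mix e.A s (x e.j) else 0) + (if e.j = p then mix e.B s (x e.i) else 0) +
      util l x p s := by
  simp [util]

theorem util_append (l l' : List Sub) (x : ℕ → ℝ) (p : ℕ) (s : Bool) :
    util (l ++ l') x p s = util l x p s + util l' x p s := by
  simp [util]

theorem util_flatMap (f : ℕ → List Sub) (m : ℕ) (x : ℕ → ℝ) (p : ℕ) (s : Bool) :
    util ((List.range m).flatMap f) x p s = ∑ t ∈ Finset.range m, util (f t) x p s := by
  induction m with
  | zero => rfl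
  | succ m ih =>
    rw [List.range_succ, List.flatMap_append, util_append, ih, Finset.sum_range_succ,
      List.flatMap_singleton]

theorem util_cont (l : List Sub) (p : ℕ) (s : Bool) : Continuous fun x => util l x p s := by
  induction l with
  | nil => exact continuous_const
  | cons e l ih =>
    simp only [util_cons, mix]
    refine Continuous.add (Continuous.add ?_ ?_) ih <;> split_ifs <;> fun_prop

theorem mix_lip {A : Bool → Bool → ℚ≥0} (h : ∀ s t, A s t ≤ 1) (s : Bool) {y y' η : ℝ}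
    (hy : |y - y'| ≤ η) : |mix A s y - mix A s y'| ≤ η := by
  have h1 : ∀ t, ((A s t : ℚ≥0) : ℝ) ≤ 1 := fun t => by exact_mod_cast h s t
  have h2 : ∀ t, (0 : ℝ) ≤ (A s t : ℚ≥0) := fun t => NNRat.cast_nonneg _
  have h3 : |((A s true : ℚ≥0) : ℝ) - (A s false : ℚ≥0)| ≤ 1 :=
    abs_le.2 ⟨by linarith [h1 false, h2 true], by linarith [h1 true, h2 false]⟩
  rw [show mix A s y - mix A s y' = (y - y') * (A s true - A s false) by simp only [mix]; ring,
    abs_mul]
  exact (mul_le_of_le_one_right (abs_nonneg _) h3).trans hy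

theorem util_lip {l : List Sub} (h : ∀ e ∈ l, ∀ s t, e.A s t ≤ 1 ∧ e.B s t ≤ 1) {x y : ℕ → ℝ}
    {η : ℝ} (hxy : ∀ q, |x q - y q| ≤ η) (p : ℕ) (s : Bool) :
    |util l x p s - util l y p s| ≤ 2 * η * l.countP fun e => decide (e.i = p ∨ e.j = p) := by
  have h0 := (abs_nonneg _).trans (hxy 0)
  induction l with
  | nil => simp [util_nil]
  | cons e l ih =>
    have h1 := ih fun e he => h e (List.mem_cons_of_mem _ he)
    have h2 := mix_lip (fun s t => (h e List.mem_cons_self s t).1) s (hxy e.j)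
    have h3 := mix_lip (fun s t => (h e List.mem_cons_self s t).2) s (hxy e.i)
    rw [util_cons, util_cons, List.countP_cons]
    rw [abs_le] at h1 h2 h3 ⊢
    by_cases a : e.i = p <;> by_cases b : e.j = p <;>
      simp only [a, b, if_true, if_false, true_or, or_true, or_self, decide_true, decide_false,
        Bool.false_eq_true] at h2 h3 ⊢ <;> push_cast <;> constructor <;>
      linarith [h1.1, h1.2, h2.1, h2.2, h3.1, h3.2]

theorem Game.exists_nash (G : Game) : ∃ y : ℕ → ℝ, (∀ i, 0 ≤ y i ∧ y i ≤ 1) ∧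
    (∀ i, G.players ≤ i → y i = 0) ∧ ∀ p < G.players, G.Supp 0 y p := by
  let ext : (Fin G.players → ℝ) → ℕ → ℝ := fun w i => if h : i < G.players then w ⟨i, h⟩ else 0
  have hc : Continuous ext := continuous_pi fun i => by
    by_cases h : i < G.players
    · simp only [ext, dif_pos h]; fun_prop
    · simp only [ext, dif_neg h]; fun_prop
  obtain ⟨w, hw, e⟩ := fixed_box (V := Fin G.players) (g := fun w v =>
      clp (w v + (util G.subs (ext w) v true - util G.subs (ext w) v false)))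
    (Continuous.continuousOn (continuous_pi fun v => clp_cont.comp ((continuous_apply v).add
      (((util_cont _ _ _).comp hc).sub ((util_cont _ _ _).comp hc))))) fun w _ v => clp_mem _
  refine ⟨ext w, fun i => ?_, fun i hi => dif_neg (not_lt.2 hi), fun p hp => ?_⟩
  · by_cases h : i < G.players
    · simp only [ext, dif_pos h]; exact hw _
    · simp [ext, dif_neg h]
  · have h1 := congrFun e ⟨p, hp⟩
    have h2 : ext w p = w ⟨p, hp⟩ := dif_pos hp
    have h3 := hw ⟨p, hp⟩
    rw [Game.Supp, h2]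
    simp only [clp] at h1
    generalize w ⟨p, hp⟩ = z at *
    rcases max_cases 0 (min 1 (z + (util G.subs (ext w) p true - util G.subs (ext w) p false))) with
      a | a <;> rcases min_cases 1 (z + (util G.subs (ext w) p true - util G.subs (ext w) p false))
      with c | c <;> rw [a.1] at h1 <;> constructor <;> intro h <;> linarith [a.2, c.1, c.2]

theorem Game.players_le (G : Game) : G.players ≤ G.code.length := by
  rw [Game.code, length_pairW, List.length_replicate]
  omega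

theorem exists_supp {ε : ℝ} (h0 : 0 < ε) : ∃ p : Polynomial ℕ, ∀ G : Game,
    (∀ e ∈ G.subs, ∀ s t, e.A s t ≤ 1 ∧ e.B s t ≤ 1) →
      ∃ x, G.Most 0 (G.Supp ε) x ∧ (ratsW x).length ≤ p.eval G.code.length := by
  classical
  obtain ⟨Q, hQ⟩ := exists_nat_ge (12 / ε)
  have hQ0 : (0 : ℝ) < Q := lt_of_lt_of_le (by positivity) hQ
  obtain ⟨B, hB⟩ : ∃ B, ∀ k ≤ Q, (ratW ((k : ℚ≥0) / Q)).length ≤ B :=
    ⟨(Finset.range (Q + 1)).sup fun k => (ratW ((k : ℚ≥0) / Q)).length, fun k hk =>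
      Finset.le_sup (f := fun k : ℕ => (ratW ((k : ℚ≥0) / Q)).length)
        (Finset.mem_range.2 (Nat.lt_succ_of_le hk))⟩
  refine ⟨Polynomial.X * Polynomial.C (2 * B + 1), fun G hG => ?_⟩
  obtain ⟨y, hy, hy0, e⟩ := G.exists_nash
  have hk : ∀ i, ⌊y i * Q⌋₊ ≤ Q := fun i => Nat.floor_le_of_le (by nlinarith [(hy i).2])
  refine ⟨(List.range G.players).map fun i => ((⌊y i * Q⌋₊ : ℕ) : ℚ≥0) / Q, ⟨by simp, ?_, ?_⟩, ?_⟩
  · intro q hq
    obtain ⟨i, -, rfl⟩ := List.mem_map.1 hq
    exact div_le_one_of_le₀ (by exact_mod_cast hk i) (by positivity)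
  · have hx : ∀ i, ((((List.range G.players).map fun i => ((⌊y i * Q⌋₊ : ℕ) : ℚ≥0) / Q).getD i 0 :
        ℚ≥0) : ℝ) = ⌊y i * Q⌋₊ / Q := by
      intro i
      by_cases h : i < G.players
      · rw [List.getD_eq_getElem _ _ (by simpa using h)]
        simp
      · rw [List.getD_eq_default _ _ (by simpa using h), hy0 i (not_lt.1 h)]
        simp
    simp only [hx]
    rw [List.countP_eq_length.2 fun p hp => decide_eq_true ?_]
    · simp
    have h1 : ∀ i, |(⌊y i * Q⌋₊ : ℝ) / Q - y i| ≤ 1 / Q := fun i => by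
      have h3 := Nat.floor_le (mul_nonneg (hy i).1 hQ0.le)
      have h4 := Nat.lt_floor_add_one (y i * Q)
      rw [div_sub' hQ0.ne', abs_div, abs_of_pos hQ0]
      exact div_le_div_of_nonneg_right (abs_le.2 ⟨by linarith, by linarith⟩) hQ0.le
    have h2 : ∀ s, |util G.subs (fun i => (⌊y i * Q⌋₊ : ℝ) / Q) p s - util G.subs y p s| ≤
        ε / 2 := fun s => by
      refine (util_lip hG h1 p s).trans ?_
      have h3 : ((G.subs.countP fun e => decide (e.i = p ∨ e.j = p) : ℕ) : ℝ) ≤ 3 := by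
        exact_mod_cast G.deg p
      refine (mul_le_mul_of_nonneg_left h3 (by positivity)).trans ?_
      rw [div_le_iff₀ h0] at hQ
      rw [mul_one_div, div_mul_eq_mul_div, div_le_iff₀ hQ0]
      linarith
    have h3 := e p (List.mem_range.1 hp)
    have h4 := abs_le.1 (h2 true)
    have h5 := abs_le.1 (h2 false)
    refine ⟨fun h => ?_, fun h => ?_⟩
    · have h6 : 0 < y p := (hy p).1.lt_of_ne fun h7 => by simp [← h7] at h
      linarith [h3.1 h6, h4.1, h5.2]
    · have h6 : y p < 1 := (hy p).2.lt_of_ne fun h7 => by simp [h7, hQ0.ne'] at h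
      linarith [h3.2 h6, h4.2, h5.1]
  · refine (length_listW_le (B := B) fun w hw => ?_).trans ?_
    · obtain ⟨q, hq, rfl⟩ := List.mem_map.1 hw
      obtain ⟨i, -, rfl⟩ := List.mem_map.1 hq
      exact hB _ (hk i)
    · simpa using G.players_le

theorem Game.Supp.happy {G : Game} {ε : ℝ} (h0 : 0 ≤ ε) {x : ℕ → ℝ} {p : ℕ} (h : G.Supp ε x p)
    (hx : 0 ≤ x p ∧ x p ≤ 1) : G.Happy ε x p := by
  intro s
  cases s
  · rcases hx.1.eq_or_lt with h1 | h1
    · rw [← h1]; linarith
    · nlinarith [h.1 h1, hx.2]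
  · rcases hx.2.eq_or_lt with h1 | h1
    · rw [h1]; linarith
    · nlinarith [h.2 h1, hx.1]

/-- a clear advantage `θ` of an action forces its probability to be at least `1 - γ` -/
def Resp (l : List Sub) (x : ℕ → ℝ) (θ γ : ℝ) (p : ℕ) : Prop :=
  (util l x p false + θ ≤ util l x p true → 1 - γ ≤ x p) ∧
    (util l x p true + θ ≤ util l x p false → x p ≤ γ)

theorem Game.Happy.resp {G : Game} {ε θ γ : ℝ} {x : ℕ → ℝ} {p : ℕ} (h : G.Happy ε x p)
    (hx : 0 ≤ x p ∧ x p ≤ 1) (hθ : 0 < θ) (hε : ε ≤ θ * γ) : Resp G.subs x θ γ p :=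
  ⟨fun h1 => by nlinarith [h true, hx.2], fun h1 => by nlinarith [h false, hx.1]⟩

theorem Game.Supp.resp {G : Game} {ε θ : ℝ} {x : ℕ → ℝ} {p : ℕ} (h : G.Supp ε x p)
    (hε : ε < θ) : Resp G.subs x θ 0 p :=
  ⟨fun h1 => by_contra fun h2 => by linarith [h.2 (by linarith)],
    fun h1 => by_contra fun h2 => by linarith [h.1 (by linarith)]⟩

/-! ### The players of a site -/

/-- the player who holds a node of the system -/
def pn (a : ℕ) : ℕ := a / 2 * 6 + 3 + 2 * (a % 2)

/-- a subgame with payoffs in sixths -/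
def mkS (i j : ℕ) (A B : Bool → Bool → ℕ) : Sub :=
  ⟨i, j, fun s t => (A s t : ℚ≥0) / 6, fun s t => (B s t : ℚ≥0) / 6⟩

/-- no payoff -/
def zT : Bool → Bool → ℕ := fun _ _ => 0

/-- payoff for equal actions -/
def dT (a b : ℕ) : Bool → Bool → ℕ := fun s t => if s = t then bif s then a else b else 0

/-- payoff for agreement of a literal with the claimed value of the conjunction -/
def litT (ng n : Bool) : Bool → Bool → ℕ :=
  fun s t => if xor n t = xor ng s then bif xor ng s then 1 else 3 else 0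

/-- the payoffs from constant literals -/
def biasT (c : Bool × (Bool × Bool) × Bool × Bool) : Bool → Bool → ℕ := fun s _ =>
  (bif c.2.1.1 then 0 else litT c.1 c.2.1.2 s true) + bif c.2.2.1 then 0 else litT c.1 c.2.2.2 s true

/-- the subgame of a literal -/
def le (ng : Bool) (B : ℕ) (l : Lit ℕ) : List Sub :=
  l.1.elim [] fun a => [mkS B (pn a) (litT ng l.2) zT]

/-- the subgames of a site whose first player is `B` -/
def sl (s : St ℕ) (B : ℕ) : List Sub :=
  mkS B (B + 1) (biasT (s.2.2, (s.1.1.isSome, s.1.2), s.2.1.1.isSome, s.2.1.2)) (dT 6 6) ::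
    mkS (B + 2) (B + 1) (dT 6 2) zT :: mkS (B + 4) (B + 1) (dT 2 6) zT ::
    mkS (B + 2) (B + 3) zT (dT 6 6) :: mkS (B + 4) (B + 5) zT (dT 6 6) ::
    (le s.2.2 B s.1 ++ le s.2.2 B s.2.1)

/-- the probability that the literal is true -/
def lp (x : ℕ → ℝ) (l : Lit ℕ) : ℝ :=
  l.1.elim (bif l.2 then 0 else 1) fun a => bif l.2 then 1 - x (pn a) else x (pn a)

theorem util_le_ne {ng : Bool} {B p : ℕ} (h : B ≠ p) (l : Lit ℕ) (x : ℕ → ℝ) (b : Bool) :
    util (le ng B l) x p b = 0 := by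
  obtain ⟨_ | a, n⟩ := l <;> simp [le, util, mkS, mix, zT, h]

theorem util_sl_ne {t p : ℕ} (h : t ≠ p / 6) (s : St ℕ) (x : ℕ → ℝ) (b : Bool) :
    util (sl s (t * 6)) x p b = 0 := by
  have h0 : t * 6 ≠ p := by omega
  have h1 : t * 6 + 1 ≠ p := by omega
  have h2 : t * 6 + 2 ≠ p := by omega
  have h3 : t * 6 + 3 ≠ p := by omega
  have h4 : t * 6 + 4 ≠ p := by omega
  have h5 : t * 6 + 5 ≠ p := by omega
  simp [sl, util_cons, util_append, util_le_ne h0, mkS, h0, h1, h2, h3, h4, h5]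

theorem util_sl0 (s : St ℕ) (B : ℕ) (x : ℕ → ℝ) (b : Bool) : util (sl s B) x B b =
    bif xor s.2.2 b then (lp x s.1 + lp x s.2.1) / 6 else (2 - lp x s.1 - lp x s.2.1) / 2 := by
  obtain ⟨⟨_ | a, _ | _⟩, ⟨_ | a', _ | _⟩, _ | _⟩ := s <;> cases b <;>
    simp [sl, le, lp, util, mkS, mix, zT, litT, biasT] <;> ring

theorem util_sl1 (s : St ℕ) (B : ℕ) (x : ℕ → ℝ) (b : Bool) :
    util (sl s B) x (B + 1) b = bif b then x B else 1 - x B := by
  cases b <;> simp [sl, util_cons, util_append, util_le_ne, mkS, mix, zT, dT]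

theorem util_sl2 (s : St ℕ) (B : ℕ) (x : ℕ → ℝ) (b : Bool) :
    util (sl s B) x (B + 2) b = bif b then x (B + 1) else (1 - x (B + 1)) / 3 := by
  cases b <;> simp [sl, util_cons, util_append, util_le_ne, mkS, mix, zT, dT]
  ring

theorem util_sl3 (s : St ℕ) (B : ℕ) (x : ℕ → ℝ) (b : Bool) :
    util (sl s B) x (B + 3) b = bif b then x (B + 2) else 1 - x (B + 2) := by
  cases b <;> simp [sl, util_cons, util_append, util_le_ne, mkS, mix, zT, dT]

theorem util_sl4 (s : St ℕ) (B : ℕ) (x : ℕ → ℝ) (b : Bool) :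
    util (sl s B) x (B + 4) b = bif b then x (B + 1) / 3 else 1 - x (B + 1) := by
  cases b <;> simp [sl, util_cons, util_append, util_le_ne, mkS, mix, zT, dT]
  ring

theorem util_sl5 (s : St ℕ) (B : ℕ) (x : ℕ → ℝ) (b : Bool) :
    util (sl s B) x (B + 5) b = bif b then x (B + 4) else 1 - x (B + 4) := by
  cases b <;> simp [sl, util_cons, util_append, util_le_ne, mkS, mix, zT, dT]

theorem lp_mem {x : ℕ → ℝ} (hx : ∀ q, 0 ≤ x q ∧ x q ≤ 1) (l : Lit ℕ) :
    0 ≤ lp x l ∧ lp x l ≤ 1 := by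
  obtain ⟨_ | a, _ | _⟩ := l <;> simp [lp, hx]

theorem lp_val {γ : ℝ} (h0 : 0 ≤ γ) {x : ℕ → ℝ} {l : Lit ℕ} {b : Bool}
    (hb : LH (fun a b => Val γ b (x (pn a))) l b) : Val γ b (lp x l) := by
  obtain ⟨_ | a, _ | _⟩ := l <;> cases b <;> simp_all [lp, LH, Val] <;> linarith

theorem sl_ok {γ γ' : ℝ} (h0 : 0 ≤ γ) {x : ℕ → ℝ} (hx : ∀ q, 0 ≤ x q ∧ x q ≤ 1) {s : St ℕ} {t : ℕ}
    (h : ∀ k < 6, Resp (sl s (t * 6)) x ((1 - 4 * γ) / 3) γ' (t * 6 + k) ∧
      Resp (sl s (t * 6)) x (1 - 2 * γ') γ (t * 6 + k)) :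
    SOk (fun a b => Val γ b (x (pn a))) s (2 * t) (2 * t + 1) := by
  have e0 : pn (2 * t) = t * 6 + 3 := by rw [pn]; omega
  have e1 : pn (2 * t + 1) = t * 6 + 5 := by rw [pn]; omega
  have r0 := (h 0 (by norm_num)).1
  have r1 := (h 1 (by norm_num)).2
  have r2 := (h 2 (by norm_num)).1
  have r3 := (h 3 (by norm_num)).2
  have r4 := (h 4 (by norm_num)).1
  have r5 := (h 5 (by norm_num)).2
  simp only [Resp, add_zero, util_sl0, util_sl1, util_sl2, util_sl3, util_sl4, util_sl5, cond_true,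
    cond_false, Bool.xor_false, Bool.xor_true] at r0 r1 r2 r3 r4 r5
  simp only [SOk, e0, e1]
  refine ⟨fun b hb => ?_, ?_⟩
  · have h7 : Val γ' b (x (t * 6)) := by
      have m1 := lp_mem hx s.1
      have m2 := lp_mem hx s.2.1
      unfold Fc at hb
      revert hb r0
      cases s.2.2 <;> cases b <;> intro r0 hb <;>
        simp only [Bool.xor_false, Bool.xor_true, Bool.not_true, Bool.not_false, cond_true,
          cond_false] at hb r0
      · rcases hb.imp (lp_val h0) (lp_val h0) with h1 | h1 <;>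
          exact r0.2 (by simp only [Val, cond_false] at h1; linarith)
      · have h1 := lp_val h0 hb.1
        have h2 := lp_val h0 hb.2
        exact r0.1 (by simp only [Val, cond_true] at h1 h2; linarith)
      · have h1 := lp_val h0 hb.1
        have h2 := lp_val h0 hb.2
        exact r0.2 (by simp only [Val, cond_true] at h1 h2; linarith)
      · rcases hb.imp (lp_val h0) (lp_val h0) with h1 | h1 <;>
          exact r0.1 (by simp only [Val, cond_false] at h1; linarith)
    cases b <;> simp only [Val, cond_true, cond_false] at h7 ⊢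
    · have h8 := r1.2 (by linarith)
      exact ⟨r3.2 (by linarith [r2.2 (by linarith)]), r5.2 (by linarith [r4.2 (by linarith)])⟩
    · have h8 := r1.1 (by linarith)
      exact ⟨r3.1 (by linarith [r2.1 (by linarith)]), r5.1 (by linarith [r4.1 (by linarith)])⟩
  · rcases le_total (x (t * 6 + 1)) (1 / 2) with h7 | h7
    · exact Or.inr ⟨false, r5.2 (by linarith [r4.2 (by linarith)])⟩
    · exact Or.inl ⟨true, r3.1 (by linarith [r2.1 (by linarith)])⟩

/-! ### The game of a system -/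

theorem mem_le {ng : Bool} {B : ℕ} {l : Lit ℕ} {e : Sub} (h : e ∈ le ng B l) :
    ∃ a, l.1 = some a ∧ e = mkS B (pn a) (litT ng l.2) zT := by
  obtain ⟨_ | a, n⟩ := l <;> simp_all [le]

theorem mem_sl {s : St ℕ} {B : ℕ} {e : Sub} (h : e ∈ sl s B) :
    ∃ i j A A', e = mkS i j A A' ∧ (∀ u v, A u v ≤ 6 ∧ A' u v ≤ 6) ∧
      (i = B ∨ i = B + 2 ∨ i = B + 4) ∧
      (j = B + 1 ∨ j = B + 3 ∨ j = B + 5 ∨ ∃ k a, slot s k = some a ∧ j = pn a) := by
  have h1 : ∀ c u v, biasT c u v ≤ 6 := by decide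
  have h2 : ∀ ng n u v, litT ng n u v ≤ 6 ∧ zT u v ≤ 6 := by decide
  simp only [sl, List.mem_cons, List.mem_append] at h
  rcases h with h | h | h | h | h | h | h
  · exact ⟨_, _, _, _, h, fun u v => ⟨h1 _ u v, by revert u v; decide⟩, by simp, by simp⟩
  · exact ⟨_, _, _, _, h, by decide, by simp, by simp⟩
  · exact ⟨_, _, _, _, h, by decide, by simp, by simp⟩
  · exact ⟨_, _, _, _, h, by decide, by simp, by simp⟩
  · exact ⟨_, _, _, _, h, by decide, by simp, by simp⟩
  · obtain ⟨a, h3, h4⟩ := mem_le h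
    exact ⟨_, _, _, _, h4, h2 _ _, by simp, Or.inr (Or.inr (Or.inr ⟨false, a, h3, rfl⟩))⟩
  · obtain ⟨a, h3, h4⟩ := mem_le h
    exact ⟨_, _, _, _, h4, h2 _ _, by simp, Or.inr (Or.inr (Or.inr ⟨true, a, h3, rfl⟩))⟩

/-- the subgames of a system -/
def PS.subs (S : PS) : List Sub := (List.range S.M).flatMap fun t => sl (S.st t) (t * 6)

theorem PS.util_subs (S : PS) (x : ℕ → ℝ) (p : ℕ) (b : Bool) : util S.subs x p b =
    if p / 6 < S.M then util (sl (S.st (p / 6)) (p / 6 * 6)) x p b else 0 := by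
  rw [PS.subs, util_flatMap]
  split_ifs with h
  · exact Finset.sum_eq_single_of_mem _ (Finset.mem_range.2 h) fun t _ ht => util_sl_ne ht _ _ _
  · exact Finset.sum_eq_zero fun t ht =>
      util_sl_ne (fun e => h (e ▸ Finset.mem_range.1 ht)) _ _ _

theorem count_le (ng : Bool) (B p : ℕ) (l : Lit ℕ) :
    (le ng B l).countP (fun e => decide (e.i = p ∨ e.j = p)) ≤
      if B = p ∨ l.1.map pn = some p then 1 else 0 := by
  obtain ⟨_ | a, n⟩ := l
  · simp [le]
  · simp [le, mkS, List.countP_cons]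

theorem count_sl (s : St ℕ) (t p : ℕ) :
    (sl s (t * 6)).countP (fun e => decide (e.i = p ∨ e.j = p)) ≤
      (if t = p / 6 then (if p % 6 = 3 ∨ p % 6 = 5 then 1 else 3) else 0) +
        ∑ k : Bool, if (slot s k).map pn = some p then 1 else 0 := by
  have h1 := count_le s.2.2 (t * 6) p s.1
  have h2 := count_le s.2.2 (t * 6) p s.2.1
  have h3 : ∀ (B : ℕ) (A1 A2 A3 A4 A5 B1 B2 B3 B4 B5 : Bool → Bool → ℕ), B = t * 6 →
      [mkS B (B + 1) A1 B1, mkS (B + 2) (B + 1) A2 B2, mkS (B + 4) (B + 1) A3 B3,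
        mkS (B + 2) (B + 3) A4 B4, mkS (B + 4) (B + 5) A5 B5].countP
        (fun e => decide (e.i = p ∨ e.j = p)) + (if B = p then 2 else 0) ≤
        if t = p / 6 then (if p % 6 = 3 ∨ p % 6 = 5 then 1 else 3) else 0 := by
    intro B A1 A2 A3 A4 A5 B1 B2 B3 B4 B5 hB
    by_cases ht : t = p / 6
    · obtain ⟨k, hk, rfl⟩ : ∃ k < 6, p = B + k := ⟨p % 6, by omega, by omega⟩
      rw [if_pos ht, show (B + k) % 6 = k by omega]
      interval_cases k <;> simp [mkS]
    · have h0 : B ≠ p := by omega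
      have h1 : B + 1 ≠ p := by omega
      have h2 : B + 2 ≠ p := by omega
      have h3 : B + 3 ≠ p := by omega
      have h4 : B + 4 ≠ p := by omega
      have h5 : B + 5 ≠ p := by omega
      simp [mkS, h0, h1, h2, h3, h4, h5]
  refine le_trans ?_ (Nat.add_le_add_right (h3 _ (biasT (s.2.2, (s.1.1.isSome, s.1.2),
    s.2.1.1.isSome, s.2.1.2)) (dT 6 2) (dT 2 6) zT zT (dT 6 6) zT zT (dT 6 6) (dT 6 6) rfl) _)
  rw [add_assoc]
  refine le_trans (le_of_eq (List.countP_append (l₁ := [_, _, _, _, _])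
    (l₂ := le s.2.2 (t * 6) s.1 ++ le s.2.2 (t * 6) s.2.1))) (Nat.add_le_add_left ?_ _)
  simp only [List.countP_append, Fintype.sum_bool, slot, cond_true, cond_false]
  by_cases a : s.1.1.map pn = some p <;> by_cases b : s.2.1.1.map pn = some p <;>
    by_cases c : t * 6 = p <;>
    simp only [a, b, c, or_true, or_false, if_true, if_false] at h1 h2 ⊢ <;> omega

theorem pn_inj {a b : ℕ} (h : pn a = pn b) : a = b := by
  unfold pn at h
  omega

theorem PS.deg (S : PS) (hS : S.WF) (p : ℕ) :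
    S.subs.countP (fun e => decide (e.i = p ∨ e.j = p)) ≤ 3 := by
  have h1 : S.subs.countP (fun e => decide (e.i = p ∨ e.j = p)) =
      ∑ t ∈ Finset.range S.M, (sl (S.st t) (t * 6)).countP fun e => decide (e.i = p ∨ e.j = p) := by
    rw [PS.subs, List.countP_flatMap]
    rfl
  have h2 : ∑ t ∈ Finset.range S.M, ∑ k : Bool, (if (slot (S.st t) k).map pn = some p then 1 else 0)
      ≤ if p % 6 = 3 ∨ p % 6 = 5 then 1 else 0 := by
    rw [← Finset.sum_product', ← Finset.card_filter]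
    split_ifs with h
    · refine Finset.card_le_one.2 fun z hz z' hz' => ?_
      simp only [Finset.mem_filter, Finset.mem_product, Finset.mem_range, Finset.mem_univ, and_true,
        Option.map_eq_some_iff] at hz hz'
      obtain ⟨h3, a, h4, h5⟩ := hz
      obtain ⟨h6, a', h7, h8⟩ := hz'
      obtain rfl := pn_inj (h5.trans h8.symm)
      exact Prod.ext_iff.2 (hS.inj _ h3 _ h6 _ _ _ h4 h7)
    · rw [Nat.le_zero, Finset.card_eq_zero, Finset.filter_eq_empty_iff]
      intro z _ hz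
      obtain ⟨a, -, rfl⟩ := Option.map_eq_some_iff.1 hz
      unfold pn at h
      omega
  rw [h1]
  refine (Finset.sum_le_sum fun t _ => count_sl _ t p).trans ?_
  rw [Finset.sum_add_distrib, Finset.sum_ite_eq']
  split_ifs at h2 ⊢ <;> omega

theorem nodup_sl {s : St ℕ} (h : ∀ a, slot s false = some a → slot s true ≠ some a) (t : ℕ) :
    ((sl s (t * 6)).map fun e => (e.i, e.j)).Nodup := by
  have h1 : ∀ a, t * 6 + 1 ≠ pn a := fun a => by unfold pn; omega
  obtain ⟨⟨_ | a, n⟩, ⟨_ | a', n'⟩, ng⟩ := s <;> simp [sl, le, mkS, h1]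
  exact fun e => h a rfl (congrArg some (pn_inj e).symm)

/-- the game of a system -/
def PS.game (S : PS) (hS : S.WF) : Game where
  players := S.M * 6
  subs := S.subs
  pos := Nat.mul_pos hS.pos (by norm_num)
  lt e he := by
    obtain ⟨t, ht, he⟩ := List.mem_flatMap.1 he
    rw [List.mem_range] at ht
    obtain ⟨i, j, A, A', rfl, -, h1, h2⟩ := mem_sl he
    change i < _ ∧ j < _
    rcases h2 with h2 | h2 | h2 | ⟨k, a, h2, h3⟩
    · omega
    · omega
    · omega
    · have := (hS.lt t ht k a h2).1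
      unfold pn at h3
      omega
  bip e he := by
    obtain ⟨t, -, he⟩ := List.mem_flatMap.1 he
    obtain ⟨i, j, A, A', rfl, -, h1, h2⟩ := mem_sl he
    change Even i ∧ Odd j
    rw [Nat.even_iff, Nat.odd_iff]
    rcases h2 with h2 | h2 | h2 | ⟨k, a, -, h3⟩
    · omega
    · omega
    · omega
    · unfold pn at h3
      omega
  nodup := by
    rw [PS.subs, List.map_flatMap, List.nodup_flatMap]
    refine ⟨fun t ht => nodup_sl (fun a h1 h2 => ?_) t,
      List.nodup_range.pairwise_of_forall_ne fun t _ t' _ hne z hz hz' => hne ?_⟩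
    · simpa using (hS.inj t (List.mem_range.1 ht) t (List.mem_range.1 ht) _ _ a h1 h2).2
    · obtain ⟨e, he, rfl⟩ := List.mem_map.1 hz
      obtain ⟨e', he', h1⟩ := List.mem_map.1 hz'
      obtain ⟨i, j, A, A', rfl, -, h2, -⟩ := mem_sl he
      obtain ⟨i', j', B, B', rfl, -, h3, -⟩ := mem_sl he'
      have h4 : i' = i := congrArg Prod.fst h1
      omega
  deg := S.deg hS
  le_one x hx p b := by
    rw [S.util_subs]
    split_ifs
    · have h1 : p = p / 6 * 6 + p % 6 := by omega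
      have h2 := Nat.mod_lt p (show 0 < 6 by norm_num)
      generalize p / 6 * 6 = B at h1 ⊢
      generalize S.st (p / 6) = s
      generalize p % 6 = k at h1 h2
      subst h1
      have m1 := lp_mem hx s.1
      have m2 := lp_mem hx s.2.1
      have := hx B; have := hx (B + 1); have := hx (B + 2); have := hx (B + 4)
      interval_cases k <;>
        simp only [add_zero, util_sl0, util_sl1, util_sl2, util_sl3, util_sl4, util_sl5] <;>
        rw [Bool.cond_eq_ite] <;> split_ifs <;> linarith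
    · exact zero_le_one

theorem PS.pay_le (S : PS) : ∀ e ∈ S.subs, ∀ s t, e.A s t ≤ 1 ∧ e.B s t ≤ 1 := by
  intro e he s t
  obtain ⟨u, -, he⟩ := List.mem_flatMap.1 he
  obtain ⟨i, j, A, A', rfl, h, -⟩ := mem_sl he
  exact ⟨div_le_one_of_le₀ (by exact_mod_cast (h s t).1) (by positivity),
    div_le_one_of_le₀ (by exact_mod_cast (h s t).2) (by positivity)⟩

open Classical in
theorem PS.card_bad_le' (S : PS) {γ γ' : ℝ} (h0 : 0 ≤ γ) {x : ℕ → ℝ} (hx : ∀ q, 0 ≤ x q ∧ x q ≤ 1)
    {H : ℕ → Prop}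
    (hH : ∀ p, H p → Resp S.subs x ((1 - 4 * γ) / 3) γ' p ∧ Resp S.subs x (1 - 2 * γ') γ p) :
    (S.bad fun a b => Val γ b (x (pn a))).card +
      (List.range (S.M * 6)).countP (fun p => decide (H p)) ≤ S.M * 6 := by
  have h2 := Finset.card_filter_add_card_filter_not (s := Finset.range (S.M * 6)) H
  rw [Finset.card_range] at h2
  rw [countP_range, add_comm]
  refine le_trans (Nat.add_le_add_left
    (Finset.card_le_card_of_surjOn (fun v => v / 6) fun t ht => ?_) _) h2.le
  rw [PS.bad, Finset.mem_coe, Finset.mem_filter, Finset.mem_range] at ht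
  have h3 : ∃ k < 6, ¬ H (t * 6 + k) := by
    by_contra hc
    push Not at hc
    refine ht.2 (sl_ok (γ' := γ') h0 hx fun k hk => ?_)
    have e1 : (t * 6 + k) / 6 = t := by omega
    simpa only [Resp, S.util_subs, e1, if_pos ht.1] using hH _ (hc k hk)
  obtain ⟨k, h3, h4⟩ := h3
  exact ⟨t * 6 + k, Finset.mem_coe.2 (Finset.mem_filter.2
    ⟨Finset.mem_range.2 (by omega), h4⟩), by simp only; omega⟩

/-! ### Codes -/

instance : Enc Sub := ⟨Sub.code⟩
instance : Enc Game := ⟨Game.code⟩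

/-- the list of the payoffs -/
def Sub.pay (e : Sub) : List ℚ≥0 :=
  [e.A false false, e.A false true, e.A true false, e.A true true, e.B false false,
    e.B false true, e.B true false, e.B true true]

theorem enc_sub (e : Sub) : enc e = enc (e.i, e.j, e.pay) := by
  rw [enc_pair, enc_pair, ← pairW_eq, ← ratsW_eq]; rfl

theorem enc_game (G : Game) : enc G = enc (Un.mk G.players, G.subs) := by
  rw [enc_pair, ← pairW_eq, ← listW_eq]; rfl

theorem PS.code_le' : ∃ c, ∀ (S : PS) (hS : S.WF),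
    (S.game hS).code.length ≤ S.M * (c * (Nat.size (S.M * 6) + 1)) := by
  obtain ⟨B, hB⟩ : ∃ B, ∀ k ≤ 6, esize (((k : ℕ) : ℚ≥0) / 6) ≤ B :=
    ⟨(Finset.range 7).sup fun k => esize (((k : ℕ) : ℚ≥0) / 6), fun k hk =>
      Finset.le_sup (f := fun k : ℕ => esize (((k : ℕ) : ℚ≥0) / 6))
        (Finset.mem_range.2 (Nat.lt_succ_of_le hk))⟩
  refine ⟨224 * B + 200, fun S hS => ?_⟩
  have h1 : ∀ e ∈ S.subs, esize e ≤ 16 * B + 10 + 4 * Nat.size (S.M * 6) := by
    intro e he
    have h2 := (esize_nat _).le.trans (Nat.size_le_size ((S.game hS).lt e he).1.le)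
    have h3 := (esize_nat _).le.trans (Nat.size_le_size ((S.game hS).lt e he).2.le)
    have h4 : esize e.pay ≤ e.pay.length * (2 * B + 1) := by
      obtain ⟨u, -, he⟩ := List.mem_flatMap.1 he
      obtain ⟨i, j, A, A', rfl, h, -⟩ := mem_sl he
      refine esize_list_le fun q hq => ?_
      simp only [Sub.pay, List.mem_cons, List.not_mem_nil, or_false] at hq
      rcases hq with rfl | rfl | rfl | rfl | rfl | rfl | rfl | rfl
      exacts [hB _ (h _ _).1, hB _ (h _ _).1, hB _ (h _ _).1, hB _ (h _ _).1, hB _ (h _ _).2,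
        hB _ (h _ _).2, hB _ (h _ _).2, hB _ (h _ _).2]
    have h5 : e.pay.length = 8 := rfl
    have h6 : esize e = esize (e.i, e.j, e.pay) := congrArg List.length (enc_sub e)
    have h7 : (S.game hS).players = S.M * 6 := rfl
    simp only [esize_pair] at h6
    rw [h7] at h2 h3
    rw [h5] at h4
    omega
  have h2 := esize_list_le h1
  have h3 : (S.game hS).code.length = esize (Un.mk (S.M * 6), S.subs) :=
    congrArg List.length (enc_game _)
  have h4 : S.subs.length ≤ S.M * 7 := by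
    rw [PS.subs, List.length_flatMap]
    refine (List.sum_le_card_nsmul _ 7 fun k hk => ?_).trans (by simp)
    obtain ⟨t, -, rfl⟩ := List.mem_map.1 hk
    obtain ⟨⟨_ | a, n⟩, ⟨_ | a', n'⟩, ng⟩ := S.st t <;> simp [sl, le]
  have h5 := hS.pos
  have h6 := h2.trans (Nat.mul_le_mul_right _ h4)
  rw [h3, esize_pair, esize_un]
  generalize Nat.size (S.M * 6) = s at *
  generalize S.M = M at *
  nlinarith [Nat.zero_le (M * B * s), Nat.zero_le (M * s)]

section PT

variable {α : Type} [Enc α]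

theorem dpt_mkS {γ : Type} [Enc γ] [Finite γ] [EncInj γ] (A A' : γ → Bool → Bool → ℕ) {c : α → γ}
    {i j : α → ℕ} (hc : DPT c) (hi : DPT i) (hj : DPT j) :
    DPT fun a => mkS (i a) (j a) (A (c a)) (A' (c a)) :=
  (hi.pair (hj.pair (dpt_finComp (fun c => (mkS 0 0 (A c) (A' c)).pay) hc))).of_enc
    fun a => (enc_sub (mkS (i a) (j a) (A (c a)) (A' (c a)))).symm

theorem dpt_le {ng : α → Bool} {B : α → ℕ} {l : α → Lit ℕ} (h1 : DPT ng) (h2 : DPT B)
    (h3 : DPT l) : DPT fun a => le (ng a) (B a) (l a) := by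
  refine dpt_optElim (f := fun a v => [mkS (B a) (pn v) (litT (ng a) (l a).2) zT]) h3.fst DPT.nil
    (DPT.cons (dpt_mkS (fun c : Bool × Bool => litT c.1 c.2) (fun _ => zT)
      (c := fun p : Σ _ : α, ℕ => (ng p.1, (l p.1).2)) (by fun_prop) (by fun_prop) ?_) DPT.nil)
  have : DPT fun p : Σ _ : α, ℕ => p.2 := DPT.ssnd
  simp only [pn]
  fun_prop

theorem dpt_sl {s : α → St ℕ} {B : α → ℕ} (hs : DPT s) (hB : DPT B) :
    DPT fun a => sl (s a) (B a) := by
  have h0 : ∀ (A A' : Bool → Bool → ℕ) (u v : ℕ), DPT fun a => mkS (B a + u) (B a + v) A A' :=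
    fun A A' u v => dpt_mkS (fun _ : Unit => A) (fun _ => A') (DPT.const ()) (by fun_prop)
      (by fun_prop)
  exact DPT.cons (dpt_mkS biasT (fun _ => dT 6 6) (by fun_prop) hB (by fun_prop))
    ((h0 _ _ _ _).cons ((h0 _ _ _ _).cons ((h0 _ _ _ _).cons ((h0 _ _ _ _).cons
      ((dpt_le hs.snd.snd hB hs.fst).append (dpt_le hs.snd.snd hB hs.snd.fst))))))

end PT

/-- The conjecture in the form for polymatrix games. -/
theorem gameGoal : ∃ (δ : ℝ) (c : ℕ) (R : EOL → Game) (D : EOL × List ℚ≥0 → List Bool),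
    0 < δ ∧ δ < 1 ∧ PolyTime EOL.code Game.code R ∧
      PolyTime (fun q => pairW q.1.code (ratsW q.2)) id D ∧
      (∀ I : EOL, (R I).code.length ≤ I.code.length * Nat.log 2 I.code.length ^ c) ∧
      (∀ ε : ℝ, 0 < ε → ∃ p : Polynomial ℕ, ∀ I, ∃ x, (R I).Most 0 ((R I).Happy ε) x ∧
        (R I).Most 0 ((R I).Supp ε) x ∧ (ratsW x).length ≤ p.eval (R I).code.length) ∧
      (∀ I x, (R I).Most δ ((R I).Happy (1 / 20)) x → I.Solution (D (I, x))) ∧
      ∀ ε : ℝ, ε < 1 / 3 → ∀ I x, (R I).Most δ ((R I).Supp ε) x → I.Solution (D (I, x)) := by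
  obtain ⟨S, δ, Dec, h⟩ := psGoal
  have h0 := h.pos
  have hm := h.m
  have hb := h.ql.pbd
  obtain ⟨c, hc⟩ := PS.code_le'
  obtain ⟨d, hd⟩ := h.ql.mul ((PL.const c).mul
    ((PL.size (hb.mul (PBd.const 6))).add (PL.const 1)))
  have p1 : DPT fun I => (S I).subs :=
    DPT.flatMap (f := fun I t => sl ((S I).st t) (t * 6)) (hm.range hb)
      (dpt_sl (h.st.comp (f := fun p : Σ I, {x // x ∈ List.range (S I).M} => (p.1, p.2.1))
        (by fun_prop)) (by fun_prop))
  have p2 : DPT fun I => (S I).game (h.wf I) :=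
    ((DPT.ofPT (PT.mkUn (hm.natMul (DPT.const 6)).toPT (hb.mul (PBd.const 6)))).pair p1).of_enc
      fun I => (enc_game ((S I).game (h.wf I))).symm
  have p3 : DPT fun q : EOL × List ℚ≥0 => Dec (q.1, (List.range (2 * (S q.1).M)).map
      fun a => decide ((q.2.getD (pn a) 0).den < 2 * (q.2.getD (pn a) 0).num)) := by
    have h1 := h.dec
    obtain ⟨mm, hmm⟩ : ∃ mm : EOL → ℕ, ∀ I, (S I).M = mm I := ⟨_, fun _ => rfl⟩
    simp only [hmm, pn] at hm hb ⊢
    fun_prop
  have hx : ∀ {x : List ℚ≥0}, (∀ q ∈ x, q ≤ 1) → ∀ i, (0 : ℝ) ≤ (x.getD i 0 : ℚ≥0) ∧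
      ((x.getD i 0 : ℚ≥0) : ℝ) ≤ 1 := fun h i => ⟨NNRat.cast_nonneg _, getD_le_one h i⟩
  have key : ∀ (γ γ' : ℝ) I (H : (ℕ → ℝ) → ℕ → Prop) x, 0 ≤ γ → γ < 1 / 2 →
      (∀ y p, (0 ≤ y p ∧ y p ≤ 1) → H y p →
        Resp (S I).subs y ((1 - 4 * γ) / 3) γ' p ∧ Resp (S I).subs y (1 - 2 * γ') γ p) →
      ((S I).game (h.wf I)).Most (min (1 / 2) (δ / 6)) H x →
      I.Solution (Dec (I, (List.range (2 * (S I).M)).map
        fun a => decide ((x.getD (pn a) 0).den < 2 * (x.getD (pn a) 0).num))) := by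
    intro γ γ' I H x g0 g1 hH hx'
    refine h.sol I (fun a b => Val γ b (x.getD (pn a) 0 : ℚ≥0)) _ (fun a b hb => ?_) ?_
    · cases b
      · rw [decide_eq_false_iff_not, half_lt_iff, not_lt]
        exact le_trans hb (by linarith)
      · rw [decide_eq_true_iff, half_lt_iff]
        exact lt_of_lt_of_le (by linarith) hb
    · have h1 := (Nat.cast_le (α := ℝ)).2 ((S I).card_bad_le' g0 (hx hx'.2.1)
        fun p => hH _ p (hx hx'.2.1 p))
      have h2 := hx'.2.2
      have h3 : ((S I).game (h.wf I)).players = (S I).M * 6 := rfl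
      rw [h3] at h2
      have h5 : min (1 / 2) (δ / 6) * ((S I).M * 6) ≤ δ / 6 * ((S I).M * 6) :=
        mul_le_mul_of_nonneg_right (min_le_right _ _) (by positivity)
      push_cast at h1 h2
      linarith
  refine ⟨min (1 / 2) (δ / 6), d, fun I => (S I).game (h.wf I), _,
    lt_min (by norm_num) (by positivity), (min_le_left _ _).trans_lt (by norm_num),
    p2.toPT.exists_tm2, polyTime_dec p3, fun I => (hc _ _).trans (hd I), fun ε hε => ?_,
    fun I x => key (1 / 10) (1 / 4) I _ x (by norm_num) (by norm_num) fun y p hy hH =>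
      ⟨hH.resp hy (by norm_num) (by norm_num), hH.resp hy (by norm_num) (by norm_num)⟩,
    fun ε hε I x => key 0 0 I _ x le_rfl (by norm_num) fun y p hy hH =>
      ⟨hH.resp (by linarith), hH.resp (by linarith)⟩⟩
  obtain ⟨p, hp⟩ := exists_supp hε
  refine ⟨p, fun I => ?_⟩
  obtain ⟨x, h1, h2⟩ := hp ((S I).game (h.wf I)) (S I).pay_le
  refine ⟨x, ⟨h1.1, h1.2.1, h1.2.2.trans (Nat.cast_le.2 (List.countP_mono_left fun q _ hq => ?_))⟩,
    h1, h2⟩
  simp only [decide_eq_true_eq] at hq ⊢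
  exact hq.happy hε.le (hx h1.2.1 q)

end Vale.Agent.N330
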