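import Vale.Agent.P330.Str

/-!
P330, second hand-in: systems of purifying two-input gates with three values in which every node
is read at most once.
-/

namespace Vale.Agent.N330

open Vale.Agent.P330 Vale.Agent.Lib.NP
open Vale.Agent.Lib.PolyTime hiding C P
open Vale.Agent.Lib.Dep

/-- literals: a node (or the constant `true`) and a sign -/
abbrev Lit (N : Type) : Type := Option N × Bool

/-- sites: two literals and a sign -/
abbrev St (N : Type) : Type := Lit N × Lit N × Bool

section Sem

variable {N N' : Type}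

/-- the literal has the pure value `b` -/
def LH (P : N → Bool → Prop) (l : Lit N) (b : Bool) : Prop :=
  l.1.elim (b = !l.2) fun a => P a (xor l.2 b)

/-- the signed conjunction of the two literals is forced to be `b` -/
def Fc (P : N → Bool → Prop) (s : St N) (b : Bool) : Prop :=
  bif xor s.2.2 b then LH P s.1 true ∧ LH P s.2.1 true else LH P s.1 false ∨ LH P s.2.1 false

/-- The outputs `u`, `v` have the forced value, and one of them is pure in any case. -/
def SOk (P : N → Bool → Prop) (s : St N) (u v : N) : Prop :=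
  (∀ b, Fc P s b → P u b ∧ P v b) ∧ ((∃ b, P u b) ∨ ∃ b, P v b)

/-- renaming -/
def lmap (φ : N → N') (l : Lit N) : Lit N' := (l.1.map φ, l.2)

/-- renaming -/
def smap (φ : N → N') (s : St N) : St N' := (lmap φ s.1, lmap φ s.2.1, s.2.2)

/-- the node which is read in the slot `i` -/
def slot (s : St N) (i : Bool) : Option N := bif i then s.2.1.1 else s.1.1

theorem LH_map (φ : N → N') (P : N' → Bool → Prop) (l : Lit N) (b : Bool) :
    LH P (lmap φ l) b ↔ LH (fun a => P (φ a)) l b := by
  obtain ⟨_ | a, n⟩ := l <;> rfl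

theorem SOk_map (φ : N → N') (P : N' → Bool → Prop) (s : St N) (u v : N) :
    SOk P (smap φ s) (φ u) (φ v) ↔ SOk (fun a => P (φ a)) s u v := by
  simp only [SOk, Fc, smap, LH_map]

theorem slot_map (φ : N → N') (s : St N) (i : Bool) : slot (smap φ s) i = (slot s i).map φ := by
  cases i <;> rfl

variable {P : N → Bool → Prop} {u v : N}

theorem fc_copy (a : N) (b : Bool) : Fc P ((some a, false), (none, false), false) b ↔ P a b := by
  cases b <;> simp [Fc, LH]

theorem SOk.copy {a : N} (h : SOk P ((some a, false), (none, false), false) u v) {b : Bool}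
    (hb : P a b) : P u b ∧ P v b := h.1 b ((fc_copy a b).2 hb)

end Sem

/-- Systems with `M` sites; the site `t` has the output nodes `2 t` and `2 t + 1`. -/
structure PS where
  /-- number of sites -/
  M : ℕ
  /-- the sites -/
  st : ℕ → St ℕ

/-- No site reads its own outputs, and every node is read at most once. -/
structure PS.WF (S : PS) : Prop where
  pos : 0 < S.M
  lt : ∀ t < S.M, ∀ i a, slot (S.st t) i = some a → a < 2 * S.M ∧ a / 2 ≠ t
  inj : ∀ t < S.M, ∀ t' < S.M, ∀ i i' a, slot (S.st t) i = some a → slot (S.st t') i' = some a →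
    t = t' ∧ i = i'

open Classical in
/-- the sites which are not in order -/
noncomputable def PS.bad (S : PS) (P : ℕ → Bool → Prop) : Finset ℕ :=
  (Finset.range S.M).filter fun t => ¬ SOk P (S.st t) (2 * t) (2 * t + 1)

/-- robust families of quasi-linear size -/
structure PSOk (S : EOL → PS) (δ : ℝ) (Dec : EOL × List Bool → List Bool) : Prop where
  pos : 0 < δ
  wf : ∀ I, (S I).WF
  m : DPT fun I => (S I).M
  ql : QL fun I => (S I).M
  st : DPT fun p : EOL × ℕ => (S p.1).st p.2
  dec : DPT Dec
  sol : ∀ I (P : ℕ → Bool → Prop) (r : ℕ → Bool), (∀ a b, P a b → r a = b) →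
    (((S I).bad P).card : ℝ) ≤ δ * (S I).M → I.Solution (Dec (I, (List.range (2 * (S I).M)).map r))

/-! ### Numbering of typed systems -/

section Num

variable {V L : Type} [En V] [Fintype L]

/-- the number of a site -/
noncomputable def nm (w : V × L) : ℕ := eidx w.1 * Fintype.card L + Fintype.equivFin L w.2

/-- the number of a node -/
noncomputable def nd (a : (V × L) × Bool) : ℕ := 2 * nm a.1 + a.2.toNat

/-- the site with a given number -/
noncomputable def un (V L : Type) [En V] [Nonempty V] [Fintype L] [Nonempty L] (t : ℕ) : V × L :=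
  (enth V (t / Fintype.card L),
    (Fintype.equivFin L).symm ⟨t % Fintype.card L, Nat.mod_lt _ Fintype.card_pos⟩)

theorem nm_div (w : V × L) : nm w / Fintype.card L = eidx w.1 := by
  have h := (Fintype.equivFin L w.2).2
  rw [nm, add_comm, Nat.add_mul_div_right _ _ (by omega), Nat.div_eq_of_lt h, zero_add]

theorem un_nm [Nonempty V] [Nonempty L] (w : V × L) : un V L (nm w) = w := by
  refine Prod.ext (by rw [un, nm_div, enth_eidx]) ?_
  rw [un, Equiv.symm_apply_eq]
  exact Fin.ext (by simp [nm, Nat.mod_eq_of_lt (Fintype.equivFin L w.2).2])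

theorem nm_lt [Fintype V] (w : V × L) : nm w < Fintype.card V * Fintype.card L := by
  have h1 := (Fintype.equivFin L w.2).2
  have h2 := Nat.mul_le_mul_right (Fintype.card L) (Nat.succ_le_of_lt (eidx_lt w.1))
  rw [Nat.succ_mul] at h2
  rw [nm]
  omega

theorem nm_un [Fintype V] [Nonempty V] [Nonempty L] {t : ℕ}
    (h : t < Fintype.card V * Fintype.card L) : nm (un V L t) = t := by
  rw [nm, un, eidx_enth (Nat.div_lt_of_lt_mul (by rwa [mul_comm])), Equiv.apply_symm_apply]
  exact Nat.div_add_mod' _ _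

theorem nd_div (a : (V × L) × Bool) : nd a / 2 = nm a.1 := by
  have := Bool.toNat_lt a.2
  rw [nd]; omega

theorem nd_inj [Nonempty V] [Nonempty L] : Function.Injective (nd : (V × L) × Bool → ℕ) := by
  intro a b h
  have h1 : nm a.1 = nm b.1 := by rw [← nd_div, h, nd_div]
  refine Prod.ext (by rw [← un_nm a.1, h1, un_nm]) ?_
  rw [nd, nd, h1, Nat.add_left_cancel_iff] at h
  revert h
  cases a.2 <;> cases b.2 <;> simp

theorem nd_lt [Fintype V] (a : (V × L) × Bool) : nd a < 2 * (Fintype.card V * Fintype.card L) := by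
  have := Bool.toNat_lt a.2
  have := nm_lt a.1
  rw [nd]; omega

end Num

section PT

variable {α : Type} [Enc α] {L : Type} [Fintype L] [Enc L] [EncInj L]

theorem dpt_nd (V : TF α) {κ : Type} [Enc κ] {c : κ → α} (hc : DPT c)
    {a : ∀ x, (V.T (c x) × L) × Bool} (ha : DPT a) : DPT fun x => nd (a x) := by
  have h1 : DPT fun x => eidx (a x).1.1 := dpt_eidx (V.pt.comp hc) ha.fst.fst
  have h2 : DPT fun x => (Fintype.equivFin L (a x).1.2 : ℕ) :=
    dpt_finComp (fun l => (Fintype.equivFin L l : ℕ)) ha.fst.snd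
  have h3 : DPT fun x => (a x).2.toNat := dpt_finComp Bool.toNat ha.snd
  simp only [nd, nm]
  fun_prop

theorem dpt_lmap (V : TF α) {κ : Type} [Enc κ] {c : κ → α} (hc : DPT c)
    {l : ∀ x, Lit ((V.T (c x) × L) × Bool)} (hl : DPT l) : DPT fun x => lmap nd (l x) :=
  (dpt_optMap (f := fun _ a => nd a) hl.fst (dpt_nd V (hc.comp DPT.id.sfst) DPT.ssnd)).pair hl.snd

end PT

theorem psOk_of_typed (V : TF EOL) {L : Type} [Fintype L] [Nonempty L] [Enc L] [EncInj L]
    (ts : ∀ I, V.T I → L → St ((V.T I × L) × Bool))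
    (dec : ∀ I, ((V.T I × L) × Bool → Bool) → List Bool) {δ : ℝ} (hδ : 0 < δ)
    (hQ : QL fun I => Fintype.card (V.T I))
    (hts : ∀ l, DPT fun x : Σ I, V.T I => ts x.1 x.2 l)
    (hdec : DPT fun p : EOL × List Bool => dec p.1 fun a => p.2.getD (nd a) false)
    (hself : ∀ I v l i a, slot (ts I v l) i = some a → a.1 ≠ (v, l))
    (hinj : ∀ I v l i v' l' i' a, slot (ts I v l) i = some a → slot (ts I v' l') i' = some a →
      (v, l) = (v', l') ∧ i = i')
    (hsol : ∀ I (P : (V.T I × L) × Bool → Bool → Prop) (r : (V.T I × L) × Bool → Bool),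
      (∀ a b, P a b → r a = b) →
      frac (fun v => ∃ l, ¬ SOk P (ts I v l) ((v, l), false) ((v, l), true)) ≤ δ →
      I.Solution (dec I r)) : ∃ S δ Dec, PSOk S δ Dec := by
  have hL : (0 : ℝ) < Fintype.card L := card_pos_real
  refine ⟨fun I => ⟨Fintype.card (V.T I) * Fintype.card L,
      fun t => smap nd (ts I (un (V.T I) L t).1 (un (V.T I) L t).2)⟩, δ / Fintype.card L,
    fun p => dec p.1 fun a => p.2.getD (nd a) false, by positivity,
    fun I => ⟨Nat.mul_pos Fintype.card_pos Fintype.card_pos, fun t ht i a h => ?_,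
      fun t ht t' ht' i i' a h h' => ?_⟩, V.dpt_card.natMul (DPT.const _), hQ.mul (PL.const _), ?_,
    hdec, fun I P r hr hb => ?_⟩
  · simp only [slot_map, Option.map_eq_some_iff] at h
    obtain ⟨a, h, rfl⟩ := h
    refine ⟨nd_lt a, fun e => hself I _ _ i a h ?_⟩
    rw [← e, nd_div, un_nm]
  · simp only [slot_map, Option.map_eq_some_iff] at h h'
    obtain ⟨a, h, rfl⟩ := h
    obtain ⟨a', h', e⟩ := h'
    obtain rfl := nd_inj e
    obtain ⟨h1, h2⟩ := hinj I _ _ _ _ _ _ _ h h'
    refine ⟨?_, h2⟩
    rw [← nm_un ht, ← nm_un ht']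
    exact congrArg nm h1
  · have h0 : DPT fun p : EOL × ℕ => (⟨p.1, (un (V.T p.1) L p.2).1⟩ : Σ I, V.T I) :=
      DPT.smk DPT.id.fst (dpt_enth (V.pt.comp DPT.id.fst) (by fun_prop))
    have h1 : DPT fun p : EOL × ℕ => ts p.1 (un (V.T p.1) L p.2).1 (un (V.T p.1) L p.2).2 :=
      dpt_cases (γ := Fin (Fintype.card L))
        (c := fun p : EOL × ℕ => ⟨p.2 % Fintype.card L, Nat.mod_lt _ Fintype.card_pos⟩)
        (f := fun c p => ts p.1 (un (V.T p.1) L p.2).1 ((Fintype.equivFin L).symm c))
        (dpt_finMk (by fun_prop)) fun c => (hts _).comp h0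
    exact (dpt_lmap V DPT.id.fst h1.fst).pair ((dpt_lmap V DPT.id.fst h1.snd.fst).pair h1.snd.snd)
  · classical
    have h1 := hsol I (fun a => P (nd a)) (fun a => r (nd a)) (fun a b => hr _ b) (by
      rw [frac_eq, div_le_iff₀ card_pos_real]
      refine le_trans (Nat.cast_le.2 (Finset.card_le_card_of_surjOn
        (fun t => (un (V.T I) L t).1) fun v hv => ?_)) (hb.trans (le_of_eq ?_))
      · simp only [Finset.coe_filter, Finset.mem_univ, true_and, Set.mem_ofPred_eq] at hv
        obtain ⟨l, hl⟩ := hv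
        refine ⟨nm (v, l), ?_, by simp only [un_nm]⟩
        simp only [PS.bad, Finset.coe_filter, Finset.mem_range, Set.mem_ofPred_eq, un_nm]
        exact ⟨nm_lt _, fun h => hl ((SOk_map nd P _ ((v, l), false) ((v, l), true)).1 h)⟩
      · push_cast
        field_simp)
    convert h1 using 2
    funext a
    rw [List.getD_eq_getElem _ _ (by simpa using nd_lt a), List.getElem_map, List.getElem_range]

end Vale.Agent.N330
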